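import Crest.Agent.R110.Ideal

/-! Row 110: Cuntz comparison below a properly infinite element. -/

set_option autoImplicit false

namespace Crest.Agent.R110

open Crest.OpAlg (IsProperlyInfinite)

universe u

variable {B : Type u} [CStarAlgebra B] [PartialOrder B] [StarOrderedRing B]
variable {Q : Type u} [CStarAlgebra Q] [PartialOrder Q] [StarOrderedRing Q]

/-- the closure of the set of all `r⋆ h r` -/
def cuntzS (h : B) : Set B := closure (Set.range fun r : B => star r * h * r)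

omit [PartialOrder B] [StarOrderedRing B] in
theorem cuntz_conj {h x : B} (hx : x ∈ cuntzS h) (w : B) : star w * x * w ∈ cuntzS h := by
  refine map_mem_closure (f := fun x => star w * x * w) (by fun_prop) hx ?_
  rintro _ ⟨r, rfl⟩
  exact ⟨r * w, by simp only [star_mul, mul_assoc]⟩

omit [PartialOrder B] [StarOrderedRing B] in
theorem cuntz_norm_mul (a b c : B) {δ : ℝ} (hb : ‖b‖ < δ) : ‖star a * b * c‖ ≤ ‖a‖ * δ * ‖c‖ := by
  refine (norm_mul_le _ _).trans (mul_le_mul_of_nonneg_right ((norm_mul_le _ _).trans ?_)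
    (norm_nonneg _))
  rw [norm_star]
  exact mul_le_mul_of_nonneg_left hb.le (norm_nonneg _)

omit [PartialOrder B] [StarOrderedRing B] in
theorem cuntz_add {h : B} (hh : IsProperlyInfinite h) (hsa : star h = h) {x x' : B}
    (hx : x ∈ cuntzS h) (hx' : x' ∈ cuntzS h) : x + x' ∈ cuntzS h := by
  have := map_mem_closure₂' (f := fun a b : B => a + b) (u := cuntzS h) (fun _ => by fun_prop)
    (fun _ => by fun_prop) hx hx' ?_
  · rwa [cuntzS, closure_closure] at this
  rintro _ ⟨r₁, rfl⟩ _ ⟨r₂, rfl⟩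
  refine Metric.mem_closure_iff.2 fun ε hε => ?_
  have hM : 0 < (‖r₁‖ + ‖r₂‖) ^ 2 + 1 := by positivity
  obtain ⟨ρ, σ, h1, h2, h3⟩ := hh (ε / ((‖r₁‖ + ‖r₂‖) ^ 2 + 1)) (by positivity)
  have h4 : ‖star σ * h * ρ‖ < ε / ((‖r₁‖ + ‖r₂‖) ^ 2 + 1) := by
    rw [← norm_star]
    simpa only [star_mul, star_star, hsa, mul_assoc] using h3
  refine ⟨_, ⟨ρ * r₁ + σ * r₂, rfl⟩, ?_⟩
  rw [dist_comm, dist_eq_norm]
  have e : star (ρ * r₁ + σ * r₂) * h * (ρ * r₁ + σ * r₂) - (star r₁ * h * r₁ + star r₂ * h * r₂) =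
      star r₁ * (star ρ * h * ρ - h) * r₁ + star r₂ * (star σ * h * σ - h) * r₂ +
        star r₁ * (star ρ * h * σ) * r₂ + star r₂ * (star σ * h * ρ) * r₁ := by
    simp only [star_add, star_mul]
    noncomm_ring
  dsimp only
  rw [e]
  set δ := ε / ((‖r₁‖ + ‖r₂‖) ^ 2 + 1) with hδ
  have hδ0 : 0 < δ := by positivity
  have hε' : ε = δ * ((‖r₁‖ + ‖r₂‖) ^ 2 + 1) := by rw [hδ]; field_simp
  refine lt_of_le_of_lt ((norm_add_le _ _).trans (add_le_add ((norm_add_le _ _).trans
    (add_le_add ((norm_add_le _ _).trans (add_le_add (cuntz_norm_mul _ _ _ h1)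
      (cuntz_norm_mul _ _ _ h2))) (cuntz_norm_mul _ _ _ h3))) (cuntz_norm_mul _ _ _ h4))) ?_
  rw [hε']
  nlinarith

theorem cuntz_her {h x x' : B} (hx' : x' ∈ cuntzS h) (hx : 0 ≤ x) (hle : x ≤ x') :
    x ∈ cuntzS h := by
  rw [cuntzS, ← closure_closure]
  refine Metric.mem_closure_iff.2 fun ε hε => ?_
  have hτ : 0 < ε / 2 := by positivity
  have h1 : IsStrictlyPositive ((ε / 2) • (1 : B)) := isStrictlyPositive_one.smul hτ
  have ha : IsStrictlyPositive (x' + (ε / 2) • (1 : B)) :=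
    IsStrictlyPositive.nonneg_add (hx.trans hle) h1
  have hq := CFC.conjugate_rpow_neg_one_half _ ha
  have hq0 : 0 ≤ (x' + (ε / 2) • (1 : B)) ^ (-(1 / 2) : ℝ) := CFC.rpow_nonneg
  generalize (x' + (ε / 2) • (1 : B)) ^ (-(1 / 2) : ℝ) = q at hq hq0
  have hqs : star q = q := (IsSelfAdjoint.of_nonneg hq0).star_eq
  have hs : CFC.sqrt x * CFC.sqrt x = x := CFC.sqrt_mul_sqrt_self x hx
  have hss : star (CFC.sqrt x) = CFC.sqrt x := (IsSelfAdjoint.of_nonneg (CFC.sqrt_nonneg x)).star_eq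
  generalize CFC.sqrt x = s at hs hss
  refine ⟨_, cuntz_conj hx' (q * s), ?_⟩
  have e : x - star (q * s) * x' * (q * s) = (ε / 2) • (star (q * s) * (q * s)) := by
    have e1 : x = s * (q * (x' + (ε / 2) • (1 : B)) * q) * s := by rw [hq, mul_one, hs]
    rw [star_mul, hqs, hss]
    conv_lhs => rw [e1]
    simp only [mul_add, add_mul, mul_smul_comm, smul_mul_assoc, mul_one, mul_assoc]
    abel
  have e2 : ‖star (q * s) * (q * s)‖ ≤ 1 := by
    rw [CStarRing.norm_star_mul_self, ← CStarRing.norm_self_mul_star]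
    have e3 : q * s * star (q * s) = star q * x * q := by
      rw [star_mul, hqs, hss, ← hs]
      simp only [mul_assoc]
    rw [e3, CStarAlgebra.norm_le_one_iff_of_nonneg _ (star_left_conjugate_nonneg hx q), ← hq]
    have := star_left_conjugate_le_conjugate (hle.trans (le_add_of_nonneg_right h1.nonneg)) q
    rwa [hqs] at this ⊢
  rw [dist_eq_norm, e, norm_smul, Real.norm_of_nonneg hτ.le]
  nlinarith

omit [PartialOrder B] [StarOrderedRing B] in
theorem cuntz_smul {h x : B} (hx : x ∈ cuntzS h) {c : ℝ} (hc : 0 ≤ c) : c • x ∈ cuntzS h := by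
  have := cuntz_conj hx (Real.sqrt c • (1 : B))
  simpa [smul_smul, Real.mul_self_sqrt hc] using this

/-- Let `S = {x | ∀ ε > 0, ∃ r, ‖(y r)⋆ (y r) - x‖ < ε}`. It is closed, invariant under
`x ↦ w⋆ x w`, closed under addition (for `r₁, r₂` take `r = ρ r₁ + σ r₂` with `ρ, σ` from
`IsProperlyInfinite (star y * y)` at tolerance `ε / (‖r₁‖ + ‖r₂‖ + 1) ^ 2 / 4`), and hereditary:
if `0 ≤ x ≤ x'` with `x' ∈ S` then for `τ > 0`, `q = (x' + τ)^(-1/2)`, `w = q * √x` one has
`x - w⋆ x' w = τ √x q q √x`, of norm `τ ‖q x q‖ ≤ τ ‖q x' q‖ ≤ τ`. Hence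
`K = {z | star z * z ∈ S}` is a closed two-sided ideal (`(u z)⋆ (u z) ≤ ‖u‖² z⋆ z`,
`(z₁ + z₂)⋆ (z₁ + z₂) ≤ 2 z₁⋆ z₁ + 2 z₂⋆ z₂`) containing `y` (`r = 1`). The square root of `x`
(`CFC.sqrt x` or `cfc Real.sqrt x`) satisfies `Sub (√x) y` (if `π x = 0` then
`(π √x)⋆ (π √x) = 0`), so `√x ∈ K` by `Sub.mem_of_isClosed`. -/
theorem exists_cuntz {x y : B} (hy : Pi y) (hx : 0 ≤ x) (h : Sub x y) {ε : ℝ} (hε : 0 < ε) :
    ∃ r, ‖star (y * r) * (y * r) - x‖ < ε := by
  have hh := hy.pinf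
  have hsa : star (star y * y) = star y * y := by rw [star_mul, star_star]
  let K : TwoSidedIdeal B := TwoSidedIdeal.mk' {z | star z * z ∈ cuntzS (star y * y)}
    (subset_closure ⟨0, by simp⟩)
    (fun {a b} ha hb => by
      refine cuntz_her (cuntz_add hh hsa (cuntz_add hh hsa ha hb) (cuntz_add hh hsa ha hb))
        (star_mul_self_nonneg _) ?_
      rw [← sub_nonneg]
      convert star_mul_self_nonneg (a - b) using 1
      simp only [star_add, star_sub]
      noncomm_ring)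
    (fun {a} ha => by simpa using ha)
    (fun {u a} ha => by
      refine cuntz_her (cuntz_smul ha (norm_nonneg (star u * u))) (star_mul_self_nonneg _) ?_
      have := CStarAlgebra.star_left_conjugate_le_norm_smul (a := a) (b := star u * u)
        (IsSelfAdjoint.star_mul_self u)
      simpa only [star_mul, mul_assoc] using this)
    (fun {a u} ha => by
      have := cuntz_conj ha u
      simpa only [Set.mem_ofPred_eq, star_mul, mul_assoc] using this)
  have hK : (K : Set B) = {z | star z * z ∈ cuntzS (star y * y)} := TwoSidedIdeal.coe_mk' ..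
  have hKc : IsClosed (K : Set B) := by
    rw [hK]
    exact isClosed_closure.preimage (f := fun z : B => star z * z) (by fun_prop)
  have hs : CFC.sqrt x * CFC.sqrt x = x := CFC.sqrt_mul_sqrt_self x hx
  have hss : star (CFC.sqrt x) = CFC.sqrt x := (IsSelfAdjoint.of_nonneg (CFC.sqrt_nonneg x)).star_eq
  have hsub : Sub (CFC.sqrt x) y := by
    intro P _ _ _ π hπ
    have := h P π hπ
    rw [← CStarRing.star_mul_self_eq_zero_iff, ← map_star, ← map_mul, hss, hs, this]
  have hyK : y ∈ K := by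
    rw [← SetLike.mem_coe, hK]
    exact subset_closure ⟨1, by simp⟩
  have h1 := hsub.mem_of_isClosed K hKc hyK
  rw [← SetLike.mem_coe, hK, Set.mem_ofPred_eq, hss, hs] at h1
  obtain ⟨_, ⟨r, rfl⟩, hr⟩ := Metric.mem_closure_iff.1 h1 ε hε
  refine ⟨r, ?_⟩
  rw [dist_comm, dist_eq_norm] at hr
  simpa only [star_mul, mul_assoc] using hr

end Crest.Agent.R110
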