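import Crest.Agent.R110.Defs

/-! Row 110: functional calculus of `ramp`. -/

set_option autoImplicit false

namespace Crest.Agent.R110

open Crest.OpAlg (IsProperlyInfinite)

universe u

variable {B : Type u} [CStarAlgebra B] [PartialOrder B] [StarOrderedRing B]
variable {Q : Type u} [CStarAlgebra Q] [PartialOrder Q] [StarOrderedRing Q]

/-- The ramp function. -/
noncomputable def rampF (α β : ℝ) (t : ℝ) : ℝ := max 0 (min 1 ((t - α) / (β - α)))

theorem rampF_cont (α β : ℝ) : Continuous (rampF α β) := by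
  unfold rampF
  fun_prop

theorem rampF_nonneg (α β t : ℝ) : 0 ≤ rampF α β t := le_max_left _ _

theorem rampF_le_one (α β t : ℝ) : rampF α β t ≤ 1 := max_le zero_le_one (min_le_left _ _)

theorem rampF_of_le {α β t : ℝ} (h : α < β) (ht : t ≤ α) : rampF α β t = 0 :=
  max_eq_left ((min_le_right _ _).trans (div_nonpos_of_nonpos_of_nonneg (by linarith) (by linarith)))

theorem rampF_of_ge {α β t : ℝ} (h : α < β) (ht : β ≤ t) : rampF α β t = 1 := by
  unfold rampF
  rw [min_eq_left ((one_le_div (by linarith)).mpr (by linarith)), max_eq_right zero_le_one]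

theorem rampF_pos {α β t : ℝ} (h : α < β) (ht : α < t) : 0 < rampF α β t :=
  lt_max_of_lt_right (lt_min one_pos (div_pos (by linarith) (by linarith)))

omit [PartialOrder B] [StarOrderedRing B] in
theorem ramp_def (α β : ℝ) (a : B) : ramp α β a = cfc (rampF α β) a := rfl

omit [PartialOrder B] [StarOrderedRing B] in
theorem ramp_spec_le {a : B} {t : ℝ} (ht : t ∈ spectrum ℝ a) : |t| ≤ ‖a‖ := by
  rcases subsingleton_or_nontrivial B with h | h
  · simp at ht
  · exact spectrum.norm_le_norm_of_mem ht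

theorem ramp_nonneg (α β : ℝ) (a : B) : 0 ≤ ramp α β a := by
  exact cfc_nonneg fun t _ => le_max_left _ _

theorem norm_ramp_le (α β : ℝ) (a : B) : ‖ramp α β a‖ ≤ 1 := by
  rw [ramp_def]
  refine norm_cfc_le zero_le_one fun t _ => ?_
  rw [Real.norm_eq_abs, abs_of_nonneg (rampF_nonneg _ _ _)]
  exact rampF_le_one _ _ _

/-- `StarAlgHom.map_cfc`. -/
theorem map_ramp (π : B →⋆ₐ[ℂ] Q) (α β : ℝ) {a : B} (ha : IsSelfAdjoint a) :
    π (ramp α β a) = ramp α β (π a) := by
  rw [ramp_def, ramp_def]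
  exact π.map_cfc _ a (rampF_cont α β).continuousOn (map_continuous π) ha (ha.map π)

/-- `w = cfc (fun t => r t / max t α) a`, with `r` the ramp function. -/
theorem exists_ramp_eq {a : B} (ha : IsSelfAdjoint a) {α β : ℝ} (hα : 0 < α) (hαβ : α < β) :
    ∃ w, IsSelfAdjoint w ∧ ‖w‖ ≤ α⁻¹ ∧ ramp α β a = a * w ∧ ramp α β a = w * a := by
  have hr := rampF_cont α β
  have hc : Continuous fun t : ℝ => rampF α β t / max t α :=
    Continuous.div hr (by fun_prop) fun t => (lt_max_of_lt_right hα).ne'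
  have key : ∀ t : ℝ, t * (fun t : ℝ => rampF α β t / max t α) t = rampF α β t ∧
      ‖(fun t : ℝ => rampF α β t / max t α) t‖ ≤ α⁻¹ := by
    intro t
    beta_reduce
    constructor
    · rcases le_total t α with h | h
      · rw [rampF_of_le hαβ h]; simp
      · rw [max_eq_left h]
        have : t ≠ 0 := by linarith
        field_simp
    · have h0 : 0 < max t α := lt_max_of_lt_right hα
      rw [Real.norm_eq_abs, abs_of_nonneg (div_nonneg (rampF_nonneg _ _ _) h0.le), ← one_div]
      exact div_le_div₀ zero_le_one (rampF_le_one _ _ _) hα (le_max_right _ _)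
  generalize (fun t : ℝ => rampF α β t / max t α) = k at hc key
  refine ⟨cfc k a, cfc_predicate _ _, norm_cfc_le (by positivity) fun t _ => (key t).2, ?_, ?_⟩
  · rw [ramp_def]
    conv_rhs => enter [1]; rw [← cfc_id' ℝ a]
    rw [← cfc_mul _ _ a]
    exact cfc_congr fun t _ => (key t).1.symm
  · rw [ramp_def]
    conv_rhs => enter [2]; rw [← cfc_id' ℝ a]
    rw [← cfc_mul _ _ a]
    exact cfc_congr fun t _ => by rw [mul_comm]; exact (key t).1.symm

theorem ramp_mul_cut {a : B} (ha : IsSelfAdjoint a) {α β δ : ℝ} (hαβ : α < β) (hβδ : β ≤ δ) :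
    ramp α β a * cut δ a = cut δ a := by
  have hr := rampF_cont α β
  rw [ramp_def]
  unfold cut
  rw [← cfc_mul _ _ a]
  refine cfc_congr fun t _ => ?_
  rcases le_total t δ with h | h
  · simp only [max_eq_right (by linarith : t - δ ≤ 0), mul_zero]
  · simp only [rampF_of_ge hαβ (hβδ.trans h), one_mul]

theorem ramp_mul_ramp {a : B} (ha : IsSelfAdjoint a) {α β γ δ : ℝ} (hαβ : α < β) (hβγ : β ≤ γ)
    (hγδ : γ < δ) : ramp α β a * ramp γ δ a = ramp γ δ a := by
  have hr := rampF_cont α β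
  have hr' := rampF_cont γ δ
  rw [ramp_def, ramp_def, ← cfc_mul _ _ a]
  refine cfc_congr fun t _ => ?_
  rcases le_total t γ with h | h
  · simp only [rampF_of_le hγδ h, mul_zero]
  · simp only [rampF_of_ge hαβ (hβγ.trans h), one_mul]

theorem ramp_eq_zero {a : B} (ha : IsSelfAdjoint a) {α β : ℝ} (hαβ : α < β) (h : ‖a‖ ≤ α) :
    ramp α β a = 0 := by
  rw [ramp_def, ← cfc_zero ℝ a]
  refine cfc_congr fun t ht => ?_
  exact rampF_of_le hαβ ((le_abs_self t).trans ((ramp_spec_le ht).trans h))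

/-- Multiply by `star v`: the function `r t * t` vanishes on the spectrum of `v v⋆`. -/
theorem norm_le_of_ramp_mul_eq_zero {v : B} {α β : ℝ} (hα : 0 ≤ α) (hαβ : α < β)
    (h : ramp α β (v * star v) * v = 0) : ‖v‖ ^ 2 ≤ α := by
  have hr := rampF_cont α β
  have hsa : IsSelfAdjoint (v * star v) := IsSelfAdjoint.mul_star_self v
  have h1 : cfc (fun t : ℝ => rampF α β t * t) (v * star v) = cfc (0 : ℝ → ℝ) (v * star v) := by
    rw [cfc_mul _ _ (v * star v), cfc_id' ℝ (v * star v), cfc_zero, ← mul_assoc, ← ramp_def, h,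
      zero_mul]
  have h2 := eqOn_of_cfc_eq_cfc h1 (by fun_prop) (by fun_prop) hsa
  rw [sq, ← CStarRing.norm_self_mul_star, ← cfc_id' ℝ (v * star v)]
  refine norm_cfc_le hα fun t ht => ?_
  have h3 := h2 ht
  have h4 := spectrum_nonneg_of_nonneg (mul_star_self_nonneg v) ht
  rw [Real.norm_eq_abs, abs_of_nonneg h4]
  by_contra hlt
  push Not at hlt
  have := mul_pos (rampF_pos hαβ hlt) (hα.trans_lt hlt)
  simp only [Pi.zero_apply] at h3
  linarith

/-- With `g = ramp α β (v v⋆)` and `h = cfc (fun t => √(1 - (r t) ^ 2)) (v v⋆)` the difference is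
`(h v)⋆ (h v)`, whose norm is `‖(h v) (h v)⋆‖ = ‖cfc (fun t => (1 - (r t) ^ 2) * t) (v v⋆)‖ ≤ β`. -/
theorem norm_sub_ramp_le (v : B) {α β : ℝ} (hα : 0 ≤ α) (hαβ : α < β) :
    ‖star v * v - star (ramp α β (v * star v) * v) * (ramp α β (v * star v) * v)‖ ≤ β := by
  have hr := rampF_cont α β
  have hsa : IsSelfAdjoint (v * star v) := IsSelfAdjoint.mul_star_self v
  have hle : ∀ t : ℝ, 0 ≤ 1 - rampF α β t * rampF α β t := fun t => by
    nlinarith [rampF_nonneg α β t, rampF_le_one α β t]
  set h := cfc (fun t : ℝ => √(1 - rampF α β t * rampF α β t)) (v * star v) with hh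
  have hhs : IsSelfAdjoint h := cfc_predicate _ _
  have hgs : IsSelfAdjoint (ramp α β (v * star v)) := cfc_predicate _ _
  have e1 : h * h = 1 - ramp α β (v * star v) * ramp α β (v * star v) := by
    rw [hh, ramp_def, ← cfc_mul _ _ (v * star v), ← cfc_mul _ _ (v * star v),
      ← cfc_const_one ℝ (v * star v), ← cfc_sub _ _ (v * star v)]
    exact cfc_congr fun t _ => Real.mul_self_sqrt (hle t)
  have e2 : star v * v - star (ramp α β (v * star v) * v) * (ramp α β (v * star v) * v)
      = star (h * v) * (h * v) := by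
    rw [star_mul, star_mul, hhs.star_eq, hgs.star_eq]
    calc _ = star v * (1 - ramp α β (v * star v) * ramp α β (v * star v)) * v := by noncomm_ring
      _ = _ := by rw [← e1]; noncomm_ring
  have e3 : h * v * star (h * v) = cfc (fun t : ℝ => √(1 - rampF α β t * rampF α β t) * t *
      √(1 - rampF α β t * rampF α β t)) (v * star v) := by
    rw [cfc_mul _ _ (v * star v), cfc_mul _ _ (v * star v), cfc_id' ℝ (v * star v), star_mul,
      hhs.star_eq, ← hh]
    noncomm_ring
  rw [e2, CStarRing.norm_star_mul_self, ← CStarRing.norm_self_mul_star, e3]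
  refine norm_cfc_le (by linarith) fun t ht => ?_
  have h4 := spectrum_nonneg_of_nonneg (mul_star_self_nonneg v) ht
  have e4 : √(1 - rampF α β t * rampF α β t) * t * √(1 - rampF α β t * rampF α β t)
      = (1 - rampF α β t * rampF α β t) * t := by
    rw [mul_right_comm, Real.mul_self_sqrt (hle t)]
  rw [e4, Real.norm_eq_abs, abs_of_nonneg (mul_nonneg (hle t) h4)]
  rcases le_total t β with h5 | h5
  · nlinarith [mul_nonneg (mul_self_nonneg (rampF α β t)) h4]
  · rw [rampF_of_ge hαβ h5]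
    linarith

/-- `f = cfc (fun t => √(1 - r t)) a`. -/
theorem exists_sqrt_one_sub_ramp {a : B} (ha : IsSelfAdjoint a) {α β : ℝ} (hαβ : α < β) :
    ∃ f, IsSelfAdjoint f ∧ f * f = 1 - ramp α β a ∧ (∀ δ, β ≤ δ → f * cut δ a = 0) ∧
      ∀ γ δ, γ < δ → δ ≤ α → f * (1 - ramp γ δ a) = 1 - ramp γ δ a := by
  have hr := rampF_cont α β
  refine ⟨cfc (fun t : ℝ => √(1 - rampF α β t)) a, cfc_predicate _ _, ?_, ?_, ?_⟩
  · rw [ramp_def, ← cfc_mul _ _ a, ← cfc_const_one ℝ a, ← cfc_sub _ _ a]
    exact cfc_congr fun t _ => Real.mul_self_sqrt (by linarith [rampF_le_one α β t])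
  · intro δ hδ
    unfold cut
    rw [← cfc_mul _ _ a, ← cfc_zero ℝ a]
    refine cfc_congr fun t _ => ?_
    rcases le_total t δ with h | h
    · simp only [max_eq_right (by linarith : t - δ ≤ 0), mul_zero, Pi.zero_apply]
    · simp [rampF_of_ge hαβ (hδ.trans h)]
  · intro γ δ hγδ hδ
    have hr' := rampF_cont γ δ
    rw [ramp_def, ← cfc_const_one ℝ a, ← cfc_sub _ _ a, ← cfc_mul _ _ a]
    refine cfc_congr fun t _ => ?_
    rcases le_total t α with h | h
    · simp [rampF_of_le hαβ h]
    · simp [rampF_of_ge hγδ (hδ.trans h)]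

end Crest.Agent.R110
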