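import Crest.Agent.R110.Ideal
import Crest.Agent.R110.Ramp

/-! Row 110: exactly orthogonal copies. -/

set_option autoImplicit false

namespace Crest.Agent.R110

open Crest.OpAlg (IsProperlyInfinite)

universe u

variable {B : Type u} [CStarAlgebra B] [PartialOrder B] [StarOrderedRing B]
variable {Q : Type u} [CStarAlgebra Q] [PartialOrder Q] [StarOrderedRing Q]

/-- Put `ρ = ε / 8`. From `IsProperlyInfinite (star y * y)` at a small tolerance `τ` get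
`v₁ = y r₀`, `v₂ = y s₀` (`‖vᵢ‖² ≤ ‖y‖² + τ`). Let `g = ramp ρ (2 ρ) (v₁ v₁⋆)`,
`m = ramp (ρ / 2) ρ (v₁ v₁⋆) = v₁ v₁⋆ k = k v₁ v₁⋆` (`exists_ramp_eq`, `‖k‖ ≤ 2 / ρ`), `m g = g`.
Take `v₁' = g v₁` and `v₂' = v₂ - m v₂`; both lie in `y B`, `v₁'⋆ v₂' = v₁⋆ g (1 - m) v₂ = 0`,
`norm_sub_ramp_le` controls `v₁'`, and `‖m v₂‖ ≤ ‖k‖ ‖v₁‖ τ`. -/
theorem exists_orth {y : B} (hy : Pi y) {ε : ℝ} (hε : 0 < ε) :
    ∃ r s, star (y * r) * (y * s) = 0 ∧ ‖star (y * r) * (y * r) - star y * y‖ < ε ∧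
      ‖star (y * s) * (y * s) - star y * y‖ < ε := by
  set ρ : ℝ := ε / 8 with hρ
  have hρ0 : 0 < ρ := by positivity
  set M : ℝ := ‖star y * y‖ + 1 with hM
  have hM0 : 0 < M := by positivity
  set D : ℝ := 6 * M / ρ + 1 with hD
  have hD1 : 1 ≤ D := by
    have : 0 ≤ 6 * M / ρ := by positivity
    linarith
  have hD0 : 0 < D := by linarith
  set τ : ℝ := min 1 (ρ / D) with hτ
  have hτ0 : 0 < τ := lt_min one_pos (by positivity)
  have hτ1 : τ ≤ 1 := min_le_left _ _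
  have hτD : D * τ ≤ ρ := by
    have : τ ≤ ρ / D := min_le_right _ _
    rw [le_div_iff₀ hD0] at this
    linarith
  have hτρ : τ ≤ ρ := by nlinarith
  obtain ⟨r₀, s₀, h1, h2, h3⟩ := hy.pinf τ hτ0
  set v₁ := y * r₀ with hv₁
  set v₂ := y * s₀ with hv₂
  have e1 : star r₀ * (star y * y) * r₀ = star v₁ * v₁ := by
    simp only [hv₁, star_mul, mul_assoc]
  have e2 : star s₀ * (star y * y) * s₀ = star v₂ * v₂ := by
    simp only [hv₂, star_mul, mul_assoc]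
  have e3 : star r₀ * (star y * y) * s₀ = star v₁ * v₂ := by
    simp only [hv₁, hv₂, star_mul, mul_assoc]
  rw [e1] at h1
  rw [e2] at h2
  rw [e3] at h3
  have nsq : ∀ v : B, ‖star v * v - star y * y‖ < τ → ‖v‖ * ‖v‖ ≤ M := by
    intro v hv
    rw [← CStarRing.norm_star_mul_self]
    have := norm_sub_norm_le (star v * v) (star y * y)
    linarith
  have n1 := nsq v₁ h1
  have n2 := nsq v₂ h2
  have n12 : ‖v₁‖ * ‖v₂‖ ≤ M := by nlinarith [sq_nonneg (‖v₁‖ - ‖v₂‖)]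
  have hsa : IsSelfAdjoint (v₁ * star v₁) := IsSelfAdjoint.mul_star_self v₁
  set g := ramp ρ (2 * ρ) (v₁ * star v₁) with hg
  set m := ramp (ρ / 2) ρ (v₁ * star v₁) with hm
  obtain ⟨w, -, -, hw, -⟩ := exists_ramp_eq hsa hρ0 (show ρ < 2 * ρ by linarith)
  obtain ⟨k, -, hk, hk1, hk2⟩ := exists_ramp_eq hsa (show 0 < ρ / 2 by positivity)
    (show ρ / 2 < ρ by linarith)
  rw [← hg] at hw
  rw [← hm] at hk1 hk2
  have hgsa : IsSelfAdjoint g := IsSelfAdjoint.of_nonneg (ramp_nonneg _ _ _)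
  have hmsa : IsSelfAdjoint m := IsSelfAdjoint.of_nonneg (ramp_nonneg _ _ _)
  have hmg : m * g = g :=
    ramp_mul_ramp hsa (show ρ / 2 < ρ by linarith) le_rfl (show ρ < 2 * ρ by linarith)
  have hgm : g * m = g := by
    have := congrArg star hmg
    rwa [star_mul, hgsa.star_eq, hmsa.star_eq] at this
  have hr : y * (r₀ * star v₁ * w * v₁) = g * v₁ := by
    rw [hw]
    simp only [← mul_assoc, ← hv₁]
  have hs : y * (s₀ - r₀ * star v₁ * k * v₂) = v₂ - m * v₂ := by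
    rw [hk1, mul_sub]
    simp only [← mul_assoc, ← hv₁, ← hv₂]
  refine ⟨r₀ * star v₁ * w * v₁, s₀ - r₀ * star v₁ * k * v₂, ?_, ?_, ?_⟩
  · rw [hr, hs, star_mul, hgsa.star_eq, mul_sub, mul_assoc (star v₁) g (m * v₂),
      ← mul_assoc g m, hgm, mul_assoc, sub_self]
  · rw [hr]
    have a1 := norm_sub_ramp_le v₁ hρ0.le (show ρ < 2 * ρ by linarith)
    rw [← hg, norm_sub_rev] at a1
    have a2 := norm_sub_le_norm_sub_add_norm_sub (star (g * v₁) * (g * v₁)) (star v₁ * v₁)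
      (star y * y)
    linarith
  · rw [hs]
    set e := m * v₂ with he
    have he1 : ‖e‖ ≤ ‖v₂‖ := by
      calc ‖e‖ ≤ ‖m‖ * ‖v₂‖ := norm_mul_le _ _
        _ ≤ 1 * ‖v₂‖ := by gcongr; exact norm_ramp_le _ _ _
        _ = ‖v₂‖ := one_mul _
    have he2 : ‖e‖ ≤ 2 / ρ * ‖v₁‖ * τ := by
      have : e = k * v₁ * (star v₁ * v₂) := by
        rw [he, hk2]
        simp only [mul_assoc]
      rw [this]
      have hk' : ‖k‖ ≤ 2 / ρ := by
        rw [inv_div] at hk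
        exact hk
      calc ‖k * v₁ * (star v₁ * v₂)‖ ≤ ‖k * v₁‖ * ‖star v₁ * v₂‖ := norm_mul_le _ _
        _ ≤ ‖k‖ * ‖v₁‖ * ‖star v₁ * v₂‖ := by gcongr; exact norm_mul_le _ _
        _ ≤ 2 / ρ * ‖v₁‖ * τ := by gcongr
    have hid : star (v₂ - e) * (v₂ - e) - star v₂ * v₂ =
        star e * e - star e * v₂ - star v₂ * e := by
      rw [star_sub]
      noncomm_ring
    have b1 : ‖star e * e‖ ≤ ‖e‖ * ‖v₂‖ := by
      rw [CStarRing.norm_star_mul_self]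
      gcongr
    have b2 : ‖star e * v₂‖ ≤ ‖e‖ * ‖v₂‖ := by
      simpa using norm_mul_le (star e) v₂
    have b3 : ‖star v₂ * e‖ ≤ ‖e‖ * ‖v₂‖ := by
      have := norm_mul_le (star v₂) e
      rw [norm_star, mul_comm] at this
      exact this
    have b4 : ‖star (v₂ - e) * (v₂ - e) - star v₂ * v₂‖ ≤ 3 * (‖e‖ * ‖v₂‖) := by
      rw [hid]
      have c1 := norm_sub_le (star e * e - star e * v₂) (star v₂ * e)
      have c2 := norm_sub_le (star e * e) (star e * v₂)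
      linarith
    have b5 : 3 * (‖e‖ * ‖v₂‖) ≤ 6 * M / ρ * τ := by
      calc 3 * (‖e‖ * ‖v₂‖) ≤ 3 * (2 / ρ * ‖v₁‖ * τ * ‖v₂‖) := by gcongr
        _ = 6 * (‖v₁‖ * ‖v₂‖) / ρ * τ := by ring
        _ ≤ 6 * M / ρ * τ := by gcongr
    have a2 := norm_sub_le_norm_sub_add_norm_sub (star (v₂ - e) * (v₂ - e)) (star v₂ * v₂)
      (star y * y)
    have : D * τ = 6 * M / ρ * τ + τ := by rw [hD]; ring
    linarith

end Crest.Agent.R110
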