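import Crest.Agent.R110.Ll
import Crest.Agent.R110.Orth
import Crest.Agent.R110.Cuntz

/-! Row 110: compact ideals are generated by projections. -/

set_option autoImplicit false

namespace Crest.Agent.R110

open Crest.OpAlg (IsProperlyInfinite)

universe u

variable {B : Type u} [CStarAlgebra B] [PartialOrder B] [StarOrderedRing B]
variable {Q : Type u} [CStarAlgebra Q] [PartialOrder Q] [StarOrderedRing Q]

theorem cpt_sub {b u : B} (hb : 0 ≤ b) {η : ℝ} (hη : 0 < η) (h : Sub b (cut η b))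
    (hu : ‖star u * u - star (cut (η / 2) b) * cut (η / 2) b‖ < (η / 2) ^ 2) : Sub b u := by
  intro P _ _ _ π hπ
  refine h P π ?_
  have hy : 0 ≤ cut (η / 2) b := cut_nonneg _ _
  have h1 := NonUnitalStarAlgHom.norm_apply_le π
    (star u * u - star (cut (η / 2) b) * cut (η / 2) b)
  rw [map_sub, map_mul, map_mul, hπ, mul_zero, zero_sub, norm_neg, map_star,
    CStarRing.norm_star_mul_self, ← sq] at h1
  have h2 : ‖π (cut (η / 2) b)‖ ≤ η / 2 :=
    (pow_le_pow_iff_left₀ (norm_nonneg _) (by positivity) two_ne_zero).1 (h1.trans hu.le)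
  have h3 : 0 ≤ π (cut (η / 2) b) := by
    rw [map_cut π _ hb.isSelfAdjoint]; exact cut_nonneg _ _
  rw [← add_halves η, ← cut_cut hb.isSelfAdjoint (η / 2) (by positivity),
    map_cut π _ hy.isSelfAdjoint]
  exact (cut_eq_zero_iff h3 (by positivity)).2 h2

omit [PartialOrder B] [StarOrderedRing B] in
theorem cpt_range_proj {s : B} (hs : ‖1 - star s * s‖ < 1) :
    ∃ G : B, IsStarProjection (s * G * star s) ∧ s * G * star s * s = s := by
  have hu : IsUnit (star s * s) := by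
    have := (Units.oneSub _ hs).isUnit
    simpa using this
  obtain ⟨G, hG1, hG2⟩ : ∃ G : B, star s * s * G = 1 ∧ G * (star s * s) = 1 :=
    ⟨↑hu.unit⁻¹, hu.mul_val_inv, hu.val_inv_mul⟩
  have hG : star G = G := by
    have h1 : star G * (star s * s) = 1 := by
      have := congrArg star hG1
      simpa [mul_assoc] using this
    calc star G = star G * (star s * s * G) := by rw [hG1, mul_one]
      _ = G := by rw [← mul_assoc, h1, one_mul]
  have h2 : s * G * star s * s = s := by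
    rw [mul_assoc (s * G), mul_assoc s, hG2, mul_one]
  refine ⟨G, ⟨?_, ?_⟩, h2⟩
  · show s * G * star s * (s * G * star s) = s * G * star s
    rw [← mul_assoc, ← mul_assoc, h2]
  · show star (s * G * star s) = s * G * star s
    rw [star_mul, star_mul, star_star, hG, mul_assoc]

/-- Let `Sub b (cut η b)`, `y = cut (η / 2) b` (`Pi y` by `exists_cut_eq`),
`e = ramp (η / 4) (η / 2) b`, `e₁ = ramp (η / 8) (η / 4) b`, `e₂ = ramp (η / 16) (η / 8) b`.
`exists_orth` for `y` at tolerance `(η / 2) ^ 2` gives orthogonal `u₁, u₂ ∈ y B`; `Sub b uᵢ`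
(if `π uᵢ = 0` then `‖π y‖ < η / 2`, so `π (cut η b) = cut (η / 2) (π y) = 0`). As `Sub e b`,
`exists_cuntz` gives `r` with `‖(u₁ r)⋆ (u₁ r) - e‖ < 1`; put `v = u₁ r e₁`, still
`‖v⋆ v - e‖ < 1` (`e₁ e e₁ = e`). With `f` from `exists_sqrt_one_sub_ramp` (`f f = 1 - e`,
`f y = 0`) let `s = v + f`. Then `s⋆ s = v⋆ v + 1 - e` is within `< 1` of `1`, so a self-adjoint
unit, with self-adjoint inverse `G`; `q = s G s⋆` is a projection with `q s = s`; `p = 1 - q`.
`s⋆ u₂ = 0` gives `p u₂ = u₂`, so `Sub b p`. `s (1 - e₂) = 1 - e₂` (`e₁ e₂ = e₁`,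
`f (1 - e₂) = 1 - e₂`) gives `p (1 - e₂) = 0`, so `p = p e₂ = e₂ p ∈ b B`. -/
theorem exists_proj {b : B} (hb : 0 ≤ b) (hpi : Pi b) (h : Ll b b) :
    ∃ p w, IsStarProjection p ∧ p = b * w ∧ Sub b p := by
  obtain ⟨η, hη, h⟩ := h
  have hsa := hb.isSelfAdjoint
  obtain ⟨w₀, -, hw₀, -⟩ := exists_cut_eq hsa (δ := η / 2) (by positivity)
  have hy : Pi (cut (η / 2) b) := hpi.of_eq 1 w₀ (by rw [one_mul]; exact hw₀)
  obtain ⟨r₁, s₁, h12, hu₁, hu₂⟩ := exists_orth hy (ε := (η / 2) ^ 2) (by positivity)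
  have hb₁ := cpt_sub hb hη h hu₁
  have hb₂ := cpt_sub hb hη h hu₂
  obtain ⟨w, -, -, hw, -⟩ := exists_ramp_eq hsa (α := η / 4) (β := η / 2) (by positivity)
    (by linarith)
  obtain ⟨w₂, -, -, hw₂, -⟩ := exists_ramp_eq hsa (α := η / 16) (β := η / 8) (by positivity)
    (by linarith)
  obtain ⟨f, hf, hff, hfy, hfe⟩ := exists_sqrt_one_sub_ramp hsa (α := η / 4) (β := η / 2)
    (by linarith)
  replace hfy := hfy (η / 2) le_rfl
  replace hfe := hfe (η / 16) (η / 8) (by linarith) (by linarith)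
  have he : 0 ≤ ramp (η / 4) (η / 2) b := ramp_nonneg _ _ _
  have he₁ : 0 ≤ ramp (η / 8) (η / 4) b := ramp_nonneg _ _ _
  have he₂ : 0 ≤ ramp (η / 16) (η / 8) b := ramp_nonneg _ _ _
  have hn₁ := norm_ramp_le (η / 8) (η / 4) b
  have h1e := ramp_mul_ramp hsa (α := η / 8) (β := η / 4) (γ := η / 4) (δ := η / 2)
    (by linarith) le_rfl (by linarith)
  have h21 := ramp_mul_ramp hsa (α := η / 16) (β := η / 8) (γ := η / 8) (δ := η / 4)
    (by linarith) le_rfl (by linarith)
  have hse : Sub (ramp (η / 4) (η / 2) b) (cut (η / 2) b * r₁) := by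
    rw [hw]; exact ((Sub.refl b).mul_right w).trans hb₁
  obtain ⟨r, hr⟩ := exists_cuntz (hy.of_eq 1 r₁ (by rw [one_mul])) he hse one_pos
  generalize ramp (η / 4) (η / 2) b = e at *
  generalize ramp (η / 8) (η / 4) b = e₁ at *
  generalize ramp (η / 16) (η / 8) b = e₂ at *
  generalize cut (η / 2) b = y at *
  have se := he.isSelfAdjoint.star_eq
  have se₁ := he₁.isSelfAdjoint.star_eq
  have se₂ := he₂.isSelfAdjoint.star_eq
  have he1 : e * e₁ = e := by simpa [se, se₁] using congrArg star h1e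
  have h12' : e₁ * e₂ = e₁ := by simpa [se₁, se₂] using congrArg star h21
  set v := y * r₁ * r * e₁ with hv
  have hfv : f * v = 0 := by rw [hv, ← mul_assoc, ← mul_assoc, ← mul_assoc, hfy]; simp
  have hvf : star v * f = 0 := by simpa [hf.star_eq] using congrArg star hfv
  have hs : ‖1 - star (v + f) * (v + f)‖ < 1 := by
    have e1 : 1 - star (v + f) * (v + f) =
        -(e₁ * (star (y * r₁ * r) * (y * r₁ * r) - e) * e₁) := by
      rw [star_add, hf.star_eq, add_mul, mul_add, mul_add, hvf, hfv, hff, mul_sub, sub_mul, h1e,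
        he1, hv, star_mul _ e₁, se₁]
      simp only [mul_assoc]
      abel
    rw [e1, norm_neg]
    have h0 := norm_nonneg (star (y * r₁ * r) * (y * r₁ * r) - e)
    calc _ ≤ ‖e₁‖ * ‖star (y * r₁ * r) * (y * r₁ * r) - e‖ * ‖e₁‖ := norm_mul₃_le
      _ ≤ 1 * ‖star (y * r₁ * r) * (y * r₁ * r) - e‖ * 1 := by gcongr
      _ < 1 := by simpa using hr
  obtain ⟨G, hq, hqs⟩ := cpt_range_proj hs
  have hsu : star (v + f) * (y * s₁) = 0 := by
    rw [star_add, hf.star_eq, add_mul, ← mul_assoc f, hfy, zero_mul, add_zero, hv, star_mul,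
      star_mul (y * r₁), mul_assoc, mul_assoc, h12, mul_zero, mul_zero]
  have hse₂ : (v + f) * (1 - e₂) = 1 - e₂ := by
    rw [add_mul, hfe, hv, mul_assoc _ e₁, mul_sub, mul_one, h12', sub_self, mul_zero, zero_add]
  have hpu : (1 - (v + f) * G * star (v + f)) * (y * s₁) = y * s₁ := by
    rw [sub_mul, one_mul, mul_assoc, hsu, mul_zero, sub_zero]
  have hpe : (1 - (v + f) * G * star (v + f)) * (1 - e₂) = 0 := by
    rw [sub_mul, one_mul, sub_eq_zero]
    conv_rhs => rw [← hse₂, ← mul_assoc, hqs, hse₂]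
  have hp := hq.one_sub
  generalize 1 - (v + f) * G * star (v + f) = p at *
  refine ⟨p, w₂ * p, hp, ?_, hb₂.trans (hpu ▸ (Sub.refl p).mul_right (y * s₁))⟩
  rw [mul_sub, mul_one, sub_eq_zero] at hpe
  have h3 := congrArg star hpe
  rw [star_mul, se₂, hp.isSelfAdjoint.star_eq] at h3
  rw [← mul_assoc, ← hw₂]
  exact h3

end Crest.Agent.R110
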