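import Crest.Agent.R110.Ll

/-! Row 110: lifting pieces from a quotient. -/

set_option autoImplicit false

namespace Crest.Agent.R110

open Crest.OpAlg (IsProperlyInfinite)

universe u

variable {B : Type u} [CStarAlgebra B] [PartialOrder B] [StarOrderedRing B]
variable {Q : Type u} [CStarAlgebra Q] [PartialOrder Q] [StarOrderedRing Q]

/-- Let `xb x' = x'`, `0 ≤ x'`, `Ll (cut κ (π α)) x'`, `x' = xb x' = π α π w`. Put
`z = α w w⋆ α`, so `π z = x' x'⋆ = x' x'`, and `Sub (π (cut κ α)) (π z)`. `Sub.approx` gives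
`u, j` with `‖cut κ α - u - j‖ < κ`. Let `Z = z + α j j⋆ α ∈ α B`. `Sub (cut (2 κ) α) Z`: if
`ρ Z = 0` then `ρ z = 0`, `ρ (α j) = 0`, `ρ u = 0`; with `t = ρ (cut κ α) = w' ρ α`:
`t ρ j = 0`, so `‖t‖² = ‖t (t - ρ j)‖ ≤ ‖t‖ κ`, `‖t‖ ≤ κ` and `cut κ t = 0` (`cut_cut`).
Then `Ll a' Z` (`Ll.of_sub`), `exists_piece` gives `x = Z k`, and `π x = x' x' π k`. -/
theorem exists_lift (π : B →⋆ₐ[ℂ] Q) (hπ : Function.Surjective π) {α a' : B} {κ : ℝ}
    (hα : 0 ≤ α) (hκ : 0 < κ) (hl : Ll a' (cut (2 * κ) α)) {xb : Q}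
    (h : Piece (π α) (cut κ (π α)) xb) : ∃ x, Piece α a' x ∧ xb * π x = π x := by
  obtain ⟨-, -, ⟨w0, hw0⟩, x', hx0, hxx, hLl⟩ := h
  obtain ⟨w, hw⟩ := hπ (w0 * x')
  have hαs : IsSelfAdjoint α := hα.isSelfAdjoint
  have hx' : π (α * w) = x' := by rw [map_mul, hw, ← mul_assoc, ← hw0, hxx]
  set z := (α * w) * star (α * w) with hz
  have hπz : π z = x' * star x' := by rw [hz, map_mul π (α * w), map_star, hx']
  have hs1 : Sub (π (cut κ α)) (π z) := by
    rw [map_cut π κ hαs, hπz]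
    refine (hLl.sub hx0.isSelfAdjoint).trans fun P _ _ _ ρ hρ => ?_
    rw [map_mul, map_star] at hρ
    exact (CStarRing.mul_star_self_eq_zero_iff _).1 hρ
  obtain ⟨u, j, hu, hj, hn⟩ := Sub.approx π hπ hs1 hκ
  set Z := z + (α * j) * star (α * j) with hZ
  have hZ0 : 0 ≤ Z := add_nonneg (mul_star_self_nonneg _) (mul_star_self_nonneg _)
  have hZw : Z = α * (w * star (α * w) + j * star (α * j)) := by
    rw [hZ, hz, mul_add, mul_assoc α w, mul_assoc α j]
  have hs2 : Sub (cut (2 * κ) α) Z := by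
    intro P _ _ _ ρ hρ
    have e1 : ρ z = ρ (α * w) * star (ρ (α * w)) := by rw [hz, map_mul ρ (α * w), map_star]
    have e2 : ρ ((α * j) * star (α * j)) = ρ (α * j) * star (ρ (α * j)) := by
      rw [map_mul ρ (α * j), map_star]
    rw [hZ, map_add] at hρ
    have n1 : 0 ≤ ρ z := e1 ▸ mul_star_self_nonneg _
    have n2 : 0 ≤ ρ ((α * j) * star (α * j)) := e2 ▸ mul_star_self_nonneg _
    obtain ⟨z1, z2⟩ := (add_eq_zero_iff_of_nonneg n1 n2).1 hρ
    have hρj : ρ (α * j) = 0 := (CStarRing.mul_star_self_eq_zero_iff _).1 (e2 ▸ z2)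
    have hρu : ρ u = 0 := hu P ρ z1
    obtain ⟨w', -, -, hw'⟩ := exists_cut_eq hαs hκ
    set t := ρ (cut κ α) with ht
    have ht0 : 0 ≤ t := by rw [ht, map_cut ρ κ hαs]; exact cut_nonneg _ _
    have htj : t * ρ j = 0 := by
      rw [ht, ← map_mul, hw', mul_assoc, map_mul, hρj, mul_zero]
    have hd : ‖t - ρ j‖ ≤ κ := by
      have e : t - ρ j = ρ (cut κ α - u - j) := by rw [map_sub, map_sub, hρu, sub_zero]
      rw [e]
      exact (NonUnitalStarAlgHom.norm_apply_le ρ _).trans hn.le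
    have hsq : ‖t‖ * ‖t‖ ≤ ‖t‖ * κ := by
      have e : star t * t = t * (t - ρ j) := by
        rw [ht0.isSelfAdjoint.star_eq, mul_sub, htj, sub_zero]
      rw [← CStarRing.norm_star_mul_self, e]
      exact (norm_mul_le _ _).trans (mul_le_mul_of_nonneg_left hd (norm_nonneg _))
    have htκ : ‖t‖ ≤ κ := by
      by_contra hlt
      push Not at hlt
      nlinarith
    rw [two_mul, ← cut_cut hαs κ hκ.le, map_cut ρ κ (cut_nonneg κ α).isSelfAdjoint]
    exact (cut_eq_zero_iff ht0 hκ.le).2 htκ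
  obtain ⟨k, -, hk⟩ := exists_piece hZ0 hZw (hl.of_sub (cut_nonneg _ _) hZ0 hs2)
  refine ⟨Z * k, hk, ?_⟩
  have hπZ : π Z = x' * star x' := by
    rw [hZ, map_add, hπz, map_mul π (α * j), map_mul π α j, hj, mul_zero, zero_mul, add_zero]
  rw [map_mul, hπZ, ← mul_assoc, ← mul_assoc, hxx]

end Crest.Agent.R110
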