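import Crest.Agent.R110.Proj
import Crest.Agent.R110.Cpt
import Crest.Agent.R110.Lift

/-! Row 110: the case of comparable ideals. -/

set_option autoImplicit false

namespace Crest.Agent.R110

open Crest.OpAlg (IsProperlyInfinite)

universe u

variable {B : Type u} [CStarAlgebra B] [PartialOrder B] [StarOrderedRing B]
variable {Q : Type u} [CStarAlgebra Q] [PartialOrder Q] [StarOrderedRing Q]

lemma comp_sq_le {x : B} (h0 : 0 ≤ x) (h1 : ‖x‖ ≤ 1) : x * x ≤ x := by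
  have hx1 : x ≤ 1 := (CStarAlgebra.norm_le_one_iff_of_nonneg x h0).1 h1
  simpa [sq] using CStarAlgebra.pow_antitone h0 hx1 one_le_two

lemma comp_eq_zero {y : B} (hy : 0 ≤ y) {ε : ℝ} (hε : 0 < ε) (h : (ε ^ 2) • (y * y) ≤ 0) :
    y = 0 := by
  have hsa : IsSelfAdjoint y := IsSelfAdjoint.of_nonneg hy
  have h0 : (0 : B) ≤ y * y := by simpa [hsa.star_eq] using star_mul_self_nonneg y
  have h1 : (ε ^ 2) • (y * y) = 0 := le_antisymm h (smul_nonneg (by positivity) h0)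
  have h2 : y * y = 0 := by
    rcases smul_eq_zero.1 h1 with h | h
    · exact absurd h (by positivity)
    · exact h
  have h3 : star y * y = 0 := by rw [hsa.star_eq, h2]
  exact (CStarRing.star_mul_self_eq_zero_iff y).1 h3

lemma comp_map_nu (π : B →⋆ₐ[ℂ] Q) (ε : ℝ) (b c e : B) :
    π ((ε ^ 2) • (b * b) - b * star c * e * c * b) =
      (ε ^ 2) • (π b * π b) - π b * star (π c) * π e * π c * π b := by
  have h : π ((ε ^ 2) • (b * b)) = (ε ^ 2) • (π b * π b) := by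
    rw [← Complex.coe_smul, map_smul, map_mul, Complex.coe_smul]
  rw [map_sub, h]
  simp only [map_mul, map_star]

/-- Choose `γ > 0` with `Ll a' (cut γ a)`, `α = cut γ a`, then `κ > 0` with
`Ll a' (cut (2 κ) α)` (`Ll.interp` twice). Let `e = ramp (γ / 2) γ a` (`e α = α`),
`ν = ε² b b - b c⋆ e c b`, and `π` the quotient map of `exists_quot (cut 0 ν)`; there
`ε² (π b)² ≤ π b (π c)⋆ π e π c π b`. So `Sub (π b) (π e)`, `Sub e (cut (γ / 2) a)`
(`ramp_eq_zero`, `cut_eq_zero_iff`), `Ll (cut (γ / 2) a) b` (`ll_cut`, `Ll.of_sub`), hence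
`Ll (π b) (π b)`. `exists_proj` gives `p = π b * w` with `Sub (π b) p`; `diag_proj` for
`(π α, cut κ (π α), p, π c, ε / 2)` gives pieces `xb, yb`; `exists_lift` gives a piece `x` of
`(α, a')` with `xb π x = π x`; it is a piece of `(a, a')` (`exists_cut_eq`), `e x = x`, so
`x x = e x x e ≤ e e ≤ e`. Apply `exists_piece_of_test` with `b'' = b`, `θ = ε`. Let `ρ` be a
homomorphism with `ε² (ρ b)² ≤ ρ b (ρ c)⋆ ρ x ρ x ρ c ρ b`. Then `ρ ν ≤ 0`, so `ρ` kills
`cut 0 ν` and `ker π`, and `ρ = ρ' ∘ π` (`exists_factor`). With `yb = π b * w'`, conjugating the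
inequality by `ρ' w'` gives `ε² ‖ρ' yb‖² ≤ ‖ρ' (π x π c yb)‖² ≤ ‖xb π c yb‖² ≤ ε² / 4`
(`π x = π x xb`), so `‖ρ' yb‖ < 1`, `ρ' p = 0` (`Piece.map_eq_zero`), `ρ b = 0`. -/
theorem diag_comp {a a' b b' : B} (c : B) (ha : 0 ≤ a) (hb : 0 ≤ b) (hpi : Pi b) (hab : Sub a b)
    (hla : Ll a' a) (hlb : Ll b' b) {ε : ℝ} (hε : 0 < ε) : Diag a a' b b' c ε := by
  have hasa : IsSelfAdjoint a := IsSelfAdjoint.of_nonneg ha
  have hbsa : IsSelfAdjoint b := IsSelfAdjoint.of_nonneg hb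
  obtain ⟨γ, hγ, hl1⟩ := hla.interp hasa
  set α := cut γ a with hαdef
  have hα : 0 ≤ α := cut_nonneg γ a
  have hαsa : IsSelfAdjoint α := IsSelfAdjoint.of_nonneg hα
  obtain ⟨κ2, hκ2, hl2⟩ := hl1.interp hαsa
  have hκ : 0 < κ2 / 2 := by positivity
  have hl2' : Ll a' (cut (2 * (κ2 / 2)) α) := by
    rwa [show 2 * (κ2 / 2) = κ2 by ring]
  set e := ramp (γ / 2) γ a with hedef
  have he0 : 0 ≤ e := ramp_nonneg _ _ a
  have hesa : IsSelfAdjoint e := IsSelfAdjoint.of_nonneg he0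
  have he1 : ‖e‖ ≤ 1 := norm_ramp_le _ _ a
  have heα : e * α = α := ramp_mul_cut hasa (by linarith) le_rfl
  set ν := (ε ^ 2) • (b * b) - b * star c * e * c * b with hνdef
  have hνsa : IsSelfAdjoint ν := by
    rw [IsSelfAdjoint, hνdef]
    simp only [star_sub, star_smul, star_mul, star_star, hbsa.star_eq, hesa.star_eq, star_trivial,
      mul_assoc]
  obtain ⟨P, _, _, _, π, hπ, hker, -⟩ := exists_quot (cut 0 ν)
  have hπν : π ν ≤ 0 := by
    rw [← cut_zero_eq_zero_iff (hνsa.map π), ← map_cut π 0 hνsa, hker]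
    exact Sub.refl _
  have hπb : 0 ≤ π b := map_nonneg π hb
  have hs1 : Sub (π b) (π e) := by
    intro R _ _ _ ρ hρ
    have h1 : (ρ.comp π) ν ≤ 0 := by
      have := OrderHomClass.mono ρ hπν
      simpa using this
    rw [hνdef, comp_map_nu] at h1
    have h2 : (ρ.comp π) e = 0 := hρ
    rw [h2] at h1
    simp only [mul_zero, zero_mul, sub_zero] at h1
    exact comp_eq_zero (map_nonneg (ρ.comp π) hb) hε h1
  have hs2 : Sub e (cut (γ / 2) a) := by
    intro R _ _ _ ρ hρ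
    rw [map_cut ρ _ hasa, cut_eq_zero_iff (map_nonneg ρ ha) (by positivity)] at hρ
    rw [hedef, map_ramp ρ _ _ hasa]
    exact ramp_eq_zero (hasa.map ρ) (by linarith) hρ
  have hl3 : Ll (cut (γ / 2) a) b := (ll_cut a (by positivity)).of_sub ha hb hab
  have hl4 : Ll (π b) (π b) := hs1.ll ((hs2.ll hl3).map hbsa π)
  obtain ⟨p, w, hp, hpw, hbp⟩ := exists_proj hπb (hpi.map π hπ) hl4
  have hpip : Pi p := (hpi.map π hπ).of_eq 1 w (by rw [one_mul, hpw])
  obtain ⟨xb, yb, hxb, hyb, hxy⟩ := diag_proj (π c) (map_nonneg π hα) hp hpip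
    (ll_cut (π α) hκ) (half_pos hε)
  obtain ⟨x, hx, hxbx⟩ := exists_lift π hπ hα hκ hl2' hxb
  obtain ⟨hx0, hx1, ⟨w1, hw1⟩, hx3⟩ := hx
  have hxsa : IsSelfAdjoint x := IsSelfAdjoint.of_nonneg hx0
  obtain ⟨w0, -, hw0, -⟩ := exists_cut_eq hasa hγ
  have hxp : Piece a a' x := ⟨hx0, hx1, ⟨w0 * w1, by rw [hw1, hαdef, hw0, mul_assoc]⟩, hx3⟩
  have hex : e * x = x := by rw [hw1, ← mul_assoc, heα]
  have hxe : x * e = x := by
    have := congrArg star hex
    rwa [star_mul, hxsa.star_eq, hesa.star_eq] at this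
  have hxx : x * x ≤ e := by
    have h1 : x * x ≤ 1 :=
      (comp_sq_le hx0 hx1).trans ((CStarAlgebra.norm_le_one_iff_of_nonneg x hx0).1 hx1)
    have h2 := star_left_conjugate_le_conjugate h1 e
    rw [hesa.star_eq, mul_one, ← mul_assoc, hex, mul_assoc, hxe] at h2
    exact h2.trans (comp_sq_le he0 he1)
  obtain ⟨y, hy, hxcy⟩ := exists_piece_of_test (c := c) hb hxsa hε.le hb hlb (by
    intro R _ _ _ ρ hρ
    have hρb : IsSelfAdjoint (ρ b) := hbsa.map ρ
    have hρx : IsSelfAdjoint (ρ x) := hxsa.map ρ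
    have h1 : ρ ν ≤ 0 := by
      rw [hνdef, comp_map_nu, sub_nonpos]
      refine hρ.trans ?_
      have h2 : ρ x * ρ x ≤ ρ e := by
        have := OrderHomClass.mono ρ hxx
        simpa only [map_mul] using this
      have h3 := star_left_conjugate_le_conjugate h2 (ρ c * ρ b)
      simpa only [star_mul, hρb.star_eq, mul_assoc] using h3
    have h2 : ρ (cut 0 ν) = 0 := by
      rw [map_cut ρ 0 hνsa, cut_zero_eq_zero_iff (hνsa.map ρ)]
      exact h1
    obtain ⟨ρ', hρ'⟩ := exists_factor π hπ ρ fun z hz => (hker z).1 hz R ρ h2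
    obtain ⟨w2, hw2⟩ := hyb.2.2.1
    have hY : ρ' yb = ρ b * ρ' (w * w2) := by
      rw [hw2, hpw, mul_assoc, map_mul, hρ']
    have h3 := star_left_conjugate_le_conjugate hρ (ρ' (w * w2))
    have h4 : (ε ^ 2) • (star (ρ' yb) * ρ' yb) ≤
        star (ρ x * ρ c * ρ' yb) * (ρ x * ρ c * ρ' yb) := by
      rw [hY]
      simpa only [star_mul, hρb.star_eq, hρx.star_eq, mul_assoc, mul_smul_comm, smul_mul_assoc]
        using h3
    have h5 := CStarAlgebra.norm_le_norm_of_nonneg_of_le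
      (smul_nonneg (by positivity) (star_mul_self_nonneg _)) h4
    rw [norm_smul, CStarRing.norm_star_mul_self, CStarRing.norm_star_mul_self,
      Real.norm_of_nonneg (by positivity)] at h5
    have hxbsa : IsSelfAdjoint xb := IsSelfAdjoint.of_nonneg hxb.1
    have hxxb : π x * xb = π x := by
      have := congrArg star hxbx
      rwa [star_mul, (hxsa.map π).star_eq, hxbsa.star_eq] at this
    have h6 : ‖ρ x * ρ c * ρ' yb‖ ≤ ε / 2 := by
      have e1 : ρ x * ρ c * ρ' yb = ρ' (π x * (xb * π c * yb)) := by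
        rw [← mul_assoc, ← mul_assoc, hxxb, map_mul, map_mul, hρ', hρ']
      rw [e1]
      refine (NonUnitalStarAlgHom.norm_apply_le ρ' _).trans ((norm_mul_le _ _).trans ?_)
      have h7 : ‖π x‖ ≤ 1 := (NonUnitalStarAlgHom.norm_apply_le π _).trans hx1
      calc ‖π x‖ * ‖xb * π c * yb‖ ≤ 1 * (ε / 2) := by gcongr
        _ = ε / 2 := one_mul _
    have h8 : ‖ρ' yb‖ < 1 := by
      by_contra hcon
      push Not at hcon
      have h9 : 0 ≤ ‖ρ x * ρ c * ρ' yb‖ := norm_nonneg _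
      have h10 : 1 ≤ ‖ρ' yb‖ * ‖ρ' yb‖ := by nlinarith
      have h11 : ‖ρ x * ρ c * ρ' yb‖ * ‖ρ x * ρ c * ρ' yb‖ ≤ ε / 2 * (ε / 2) := by gcongr
      have h12 : 0 < ε ^ 2 := by positivity
      nlinarith
    have h13 : ρ' p = 0 := hyb.map_eq_zero ρ' h8
    rw [← hρ']
    exact hbp R ρ' h13)
  exact ⟨x, y, hxp, hy, hxcy⟩

end Crest.Agent.R110
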