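import Crest.Agent.R110.Defs

/-! Row 110: functional calculus of `cut`. -/

set_option autoImplicit false

namespace Crest.Agent.R110

open Crest.OpAlg (IsProperlyInfinite)

universe u

variable {B : Type u} [CStarAlgebra B] [PartialOrder B] [StarOrderedRing B]
variable {Q : Type u} [CStarAlgebra Q] [PartialOrder Q] [StarOrderedRing Q]

omit [PartialOrder B] [StarOrderedRing B] in
theorem cut_spec_le {a : B} {t : ℝ} (ht : t ∈ spectrum ℝ a) : |t| ≤ ‖a‖ := by
  rcases subsingleton_or_nontrivial B with h | h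
  · simp at ht
  · exact spectrum.norm_le_norm_of_mem ht

/-- `cfc_nonneg`. -/
theorem cut_nonneg (δ : ℝ) (a : B) : 0 ≤ cut δ a := by
  exact cfc_nonneg fun t _ => le_max_right _ _

/-- `StarAlgHom.map_cfc` (star algebra homomorphisms of C⋆-algebras are continuous:
`map_continuous`, `NonUnitalStarAlgHom.continuous`..). -/
theorem map_cut (π : B →⋆ₐ[ℂ] Q) (δ : ℝ) {a : B} (ha : IsSelfAdjoint a) :
    π (cut δ a) = cut δ (π a) := by
  unfold cut
  exact π.map_cfc _ a (by fun_prop) (map_continuous π) ha (ha.map π)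

/-- Both sides say that the spectrum lies in `(-∞, 0]`. -/
theorem cut_zero_eq_zero_iff {μ : B} (hμ : IsSelfAdjoint μ) : cut 0 μ = 0 ↔ μ ≤ 0 := by
  unfold cut
  constructor
  · intro h
    rw [← cfc_zero ℝ μ] at h
    have h' := eqOn_of_cfc_eq_cfc h (by fun_prop) (by fun_prop) hμ
    rw [← cfc_id' ℝ μ]
    refine cfc_nonpos _ _ fun t ht => ?_
    have := h' ht
    simp only [sub_zero, Pi.zero_apply] at this
    exact max_eq_right_iff.mp this
  · intro h
    have h2 : ∀ t ∈ spectrum ℝ μ, t ≤ 0 := by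
      have := (cfc_nonpos_iff (fun t : ℝ => t) μ (by fun_prop) hμ).mp (by rwa [cfc_id' ℝ μ])
      exact this
    rw [← cfc_zero ℝ μ]
    refine cfc_congr fun t ht => ?_
    simp only [sub_zero, Pi.zero_apply]
    exact max_eq_right (h2 t ht)

/-- Both sides say that the spectrum lies in `[0, δ]`. -/
theorem cut_eq_zero_iff {a : B} (ha : 0 ≤ a) {δ : ℝ} (hδ : 0 ≤ δ) : cut δ a = 0 ↔ ‖a‖ ≤ δ := by
  have hsa : IsSelfAdjoint a := .of_nonneg ha
  unfold cut
  constructor
  · intro h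
    rw [← cfc_zero ℝ a] at h
    have h' := eqOn_of_cfc_eq_cfc h (by fun_prop) (by fun_prop) hsa
    rw [← cfc_id' ℝ a]
    refine norm_cfc_le hδ fun t ht => ?_
    have h1 := h' ht
    have h2 := spectrum_nonneg_of_nonneg ha ht
    simp only [Pi.zero_apply] at h1
    have := max_eq_right_iff.mp h1
    rw [Real.norm_eq_abs, abs_of_nonneg h2]
    linarith
  · intro h
    rw [← cfc_zero ℝ a]
    refine cfc_congr fun t ht => ?_
    have h1 := cut_spec_le ht
    simp only [Pi.zero_apply]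
    exact max_eq_right (by linarith [le_abs_self t])

/-- `cfc_comp`. -/
theorem cut_cut {a : B} (ha : IsSelfAdjoint a) (δ : ℝ) {η : ℝ} (hη : 0 ≤ η) :
    cut η (cut δ a) = cut (δ + η) a := by
  unfold cut
  rw [← cfc_comp' (fun t : ℝ => max (t - η) 0) (fun t : ℝ => max (t - δ) 0) a]
  refine cfc_congr fun t _ => ?_
  simp only [max_def]
  split_ifs <;> linarith

/-- `w = cfc (fun t => max (t - δ) 0 / max t δ) a`. -/
theorem exists_cut_eq {a : B} (ha : IsSelfAdjoint a) {δ : ℝ} (hδ : 0 < δ) :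
    ∃ w, IsSelfAdjoint w ∧ cut δ a = a * w ∧ cut δ a = w * a := by
  have hc : Continuous fun t : ℝ => max (t - δ) 0 / max t δ :=
    Continuous.div (by fun_prop) (by fun_prop) fun t => (lt_max_of_lt_right hδ).ne'
  have key : ∀ t : ℝ, t * (fun t : ℝ => max (t - δ) 0 / max t δ) t = max (t - δ) 0 := by
    intro t
    beta_reduce
    rcases le_total t δ with h | h
    · rw [max_eq_right (by linarith : t - δ ≤ 0)]; simp
    · rw [max_eq_left h]
      have : t ≠ 0 := by linarith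
      field_simp
  generalize (fun t : ℝ => max (t - δ) 0 / max t δ) = k at hc key
  refine ⟨cfc k a, cfc_predicate _ _, ?_, ?_⟩
  · unfold cut
    conv_rhs => enter [1]; rw [← cfc_id' ℝ a]
    rw [← cfc_mul _ _ a]
    exact cfc_congr fun t _ => (key t).symm
  · unfold cut
    conv_rhs => enter [2]; rw [← cfc_id' ℝ a]
    rw [← cfc_mul _ _ a]
    exact cfc_congr fun t _ => by rw [mul_comm]; exact (key t).symm

theorem norm_sub_cut_le {a : B} (ha : 0 ≤ a) {δ : ℝ} (hδ : 0 ≤ δ) : ‖a - cut δ a‖ ≤ δ := by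
  have hsa : IsSelfAdjoint a := .of_nonneg ha
  unfold cut
  conv_lhs => enter [1, 1]; rw [← cfc_id' ℝ a]
  rw [← cfc_sub _ _ a]
  refine norm_cfc_le hδ fun t ht => ?_
  have h2 := spectrum_nonneg_of_nonneg ha ht
  rw [Real.norm_eq_abs, abs_le]
  simp only [max_def]
  split_ifs <;> constructor <;> linarith

/-- `μ₊ μ = μ₊ μ₊ = μ μ₊`. -/
theorem cut_zero_mul {μ : B} (hμ : IsSelfAdjoint μ) :
    cut 0 μ * μ = cut 0 μ * cut 0 μ ∧ μ * cut 0 μ = cut 0 μ * cut 0 μ := by
  have key : ∀ t : ℝ, max (t - 0) 0 * t = max (t - 0) 0 * max (t - 0) 0 := by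
    intro t
    rcases le_total t 0 with h | h
    · rw [max_eq_right (by linarith : t - 0 ≤ 0)]; simp
    · rw [max_eq_left (by linarith : 0 ≤ t - 0)]; simp
  unfold cut
  constructor
  · conv_lhs => enter [2]; rw [← cfc_id' ℝ μ]
    rw [← cfc_mul _ _ μ, ← cfc_mul _ _ μ]
    exact cfc_congr fun t _ => key t
  · conv_lhs => enter [1]; rw [← cfc_id' ℝ μ]
    rw [← cfc_mul _ _ μ, ← cfc_mul _ _ μ]
    exact cfc_congr fun t _ => by rw [mul_comm]; exact key t

/-- `g = cfc (fun t => (√(max t δ))⁻¹) a` satisfies `g a g = 1` on the support of `cut δ a`. -/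
theorem exists_invSqrt {a : B} (ha : IsSelfAdjoint a) {δ : ℝ} (hδ : 0 < δ) :
    ∃ g, IsSelfAdjoint g ∧ g * a * g * cut δ a = cut δ a := by
  have hc : Continuous fun t : ℝ => (√(max t δ))⁻¹ :=
    Continuous.inv₀ (by fun_prop) fun t => (Real.sqrt_pos.mpr (lt_max_of_lt_right hδ)).ne'
  have key : ∀ t : ℝ, (fun t : ℝ => (√(max t δ))⁻¹) t * t * (fun t : ℝ => (√(max t δ))⁻¹) t
      * max (t - δ) 0 = max (t - δ) 0 := by
    intro t
    beta_reduce
    rcases le_total t δ with h | h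
    · simp only [max_eq_right (by linarith : t - δ ≤ 0), mul_zero]
    · simp only [max_eq_left h]
      have ht : 0 < t := by linarith
      have h1 : √t * √t = t := Real.mul_self_sqrt ht.le
      have h2 : √t ≠ 0 := (Real.sqrt_pos.mpr ht).ne'
      have h3 : (√t)⁻¹ * t * (√t)⁻¹ = 1 := by
        field_simp
        rw [sq, h1]
      rw [h3, one_mul]
  generalize (fun t : ℝ => (√(max t δ))⁻¹) = k at hc key
  refine ⟨cfc k a, cfc_predicate _ _, ?_⟩
  unfold cut
  conv_lhs => enter [1, 1, 2]; rw [← cfc_id' ℝ a]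
  rw [← cfc_mul _ _ a, ← cfc_mul _ _ a, ← cfc_mul _ _ a]
  exact cfc_congr fun t _ => key t

/-- `z k = cfc (fun t => min (5 / 4 * t) 1) z` with `k = cfc (fun t => (max t (4 / 5))⁻¹) z`. -/
theorem exists_trunc {z : B} (hz : 0 ≤ z) :
    ∃ k, z * k = k * z ∧ 0 ≤ z * k ∧ ‖z * k‖ ≤ 1 ∧ z * k * cut (4 / 5) z = cut (4 / 5) z ∧
      z * k * (z * k) ≤ (5 / 4 : ℝ) • z := by
  have hsa : IsSelfAdjoint z := .of_nonneg hz
  have hc : Continuous fun t : ℝ => (max t (4 / 5))⁻¹ :=
    Continuous.inv₀ (by fun_prop) fun t => (lt_max_of_lt_right (by norm_num)).ne'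
  have key : ∀ t : ℝ, 0 ≤ t → 0 ≤ t * (fun t : ℝ => (max t (4 / 5))⁻¹) t ∧
      t * (fun t : ℝ => (max t (4 / 5))⁻¹) t ≤ 1 ∧
      t * (fun t : ℝ => (max t (4 / 5))⁻¹) t * max (t - 4 / 5) 0 = max (t - 4 / 5) 0 ∧
      t * (fun t : ℝ => (max t (4 / 5))⁻¹) t * (t * (fun t : ℝ => (max t (4 / 5))⁻¹) t)
        ≤ 5 / 4 * t := by
    intro t ht
    beta_reduce
    rcases le_total t (4 / 5) with h | h
    · rw [max_eq_right h, max_eq_right (by linarith : t - 4 / 5 ≤ 0)]
      refine ⟨by positivity, by norm_num; linarith, by simp, by norm_num; nlinarith⟩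
    · have : t ≠ 0 := by linarith
      rw [max_eq_left h, mul_inv_cancel₀ this]
      refine ⟨by norm_num, le_rfl, by simp, by linarith⟩
  generalize (fun t : ℝ => (max t (4 / 5))⁻¹) = k at hc key
  have e1 : z * cfc k z = cfc (fun t : ℝ => t * k t) z := by
    rw [cfc_mul _ _ z, cfc_id' ℝ z]
  have e2 : cfc k z * z = cfc (fun t : ℝ => t * k t) z := by
    conv_lhs => enter [2]; rw [← cfc_id' ℝ z]
    rw [← cfc_mul _ _ z]
    exact cfc_congr fun t _ => mul_comm _ _
  refine ⟨cfc k z, e1.trans e2.symm, ?_, ?_, ?_, ?_⟩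
  · rw [e1]
    exact cfc_nonneg fun t ht => (key t (spectrum_nonneg_of_nonneg hz ht)).1
  · rw [e1]
    refine norm_cfc_le zero_le_one fun t ht => ?_
    have := key t (spectrum_nonneg_of_nonneg hz ht)
    rw [Real.norm_eq_abs, abs_of_nonneg this.1]
    exact this.2.1
  · rw [e1]
    unfold cut
    rw [← cfc_mul _ _ z]
    exact cfc_congr fun t ht => (key t (spectrum_nonneg_of_nonneg hz ht)).2.2.1
  · rw [e1, ← cfc_mul _ _ z]
    conv_rhs => rw [← cfc_id' ℝ z]
    rw [← cfc_const_mul (5 / 4 : ℝ) (fun t : ℝ => t) z]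
    exact cfc_mono fun t ht => (key t (spectrum_nonneg_of_nonneg hz ht)).2.2.2

end Crest.Agent.R110
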