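import Crest.Prelude.Def_PurelyInfinite
import Crest.Agent.R117.Quot

/-! Row 110 (purely infinite implies strongly purely infinite): definitions. -/

set_option autoImplicit false

namespace Crest.Agent.R110

open Crest.OpAlg (IsProperlyInfinite)

universe u

variable {B : Type u} [CStarAlgebra B]

/-- `x` lies in the closed two-sided ideal generated by `z` (tested in all quotients). -/
def Sub (x z : B) : Prop :=
  ∀ (Q : Type u) [CStarAlgebra Q] [PartialOrder Q] [StarOrderedRing Q] (π : B →⋆ₐ[ℂ] Q),
    π z = 0 → π x = 0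

/-- The cut-down `(a - δ)₊`; `cut 0 μ` is the positive part of a self-adjoint `μ`. -/
noncomputable def cut (δ : ℝ) (a : B) : B := cfc (fun t : ℝ => max (t - δ) 0) a

/-- The piecewise linear function of `a` that is `0` below `α` and `1` above `β`. -/
noncomputable def ramp (α β : ℝ) (a : B) : B :=
  cfc (fun t : ℝ => max 0 (min 1 ((t - α) / (β - α)))) a

/-- `x` is compactly contained in the ideal generated by `a`. -/
def Ll (x a : B) : Prop := ∃ δ : ℝ, 0 < δ ∧ Sub x (cut δ a)

/-- All elements `y⋆ y` with `y` in `B a B` are properly infinite. -/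
def Pi (a : B) : Prop := ∀ u v : B, IsProperlyInfinite (star (u * a * v) * (u * a * v))

variable [PartialOrder B]

/-- `x` is a positive contraction in `a B` that is a unit for a positive element whose ideal
compactly contains `a'`. -/
def Piece (a a' x : B) : Prop :=
  0 ≤ x ∧ ‖x‖ ≤ 1 ∧ (∃ w, x = a * w) ∧ ∃ x', 0 ≤ x' ∧ x * x' = x' ∧ Ll a' x'

/-- Pieces of `a` and `b` that are `ε`-orthogonal for the form `c`. -/
def Diag (a a' b b' c : B) (ε : ℝ) : Prop :=
  ∃ x y, Piece a a' x ∧ Piece b b' y ∧ ‖x * c * y‖ ≤ ε

/-- The gain of one step. -/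
noncomputable def th : ℝ := 3999 / 4000

end Crest.Agent.R110
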