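import Crest.Agent.R110.Defs

/-! Row 110: the estimates of the gain step. -/

set_option autoImplicit false

namespace Crest.Agent.R110

open Crest.OpAlg (IsProperlyInfinite)

universe u

variable {B : Type u} [CStarAlgebra B] [PartialOrder B] [StarOrderedRing B]
variable {Q : Type u} [CStarAlgebra Q] [PartialOrder Q] [StarOrderedRing Q]

theorem gainest_star_mul_le {a : B} {r : ℝ} (h : ‖a‖ ≤ r) : star a * a ≤ (r ^ 2) • (1 : B) := by
  refine CStarAlgebra.star_mul_le_algebraMap_norm_sq.trans ?_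
  rw [Algebra.algebraMap_eq_smul_one]
  exact smul_le_smul_of_nonneg_right (pow_le_pow_left₀ (norm_nonneg _) h 2) zero_le_one

theorem gainest_conj_le {a : B} (u : B) (h : ‖a‖ ≤ 1) :
    star u * (star a * a) * u ≤ star u * u := by
  have := star_left_conjugate_le_conjugate (gainest_star_mul_le h) u
  simpa using this

/-- a positive contraction dominates its square -/
theorem gainest_sq_le {e : B} (he : 0 ≤ e) (he1 : ‖e‖ ≤ 1) : e * e ≤ e := by
  have h1 : e ≤ 1 := (CStarAlgebra.norm_le_one_iff_of_nonneg e he).1 he1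
  have h2 := star_left_conjugate_le_conjugate h1 (CFC.sqrt e)
  have h3 : star (CFC.sqrt e) = CFC.sqrt e := (IsSelfAdjoint.of_nonneg (CFC.sqrt_nonneg e)).star_eq
  have h4 : CFC.sqrt e * CFC.sqrt e = e := CFC.sqrt_mul_sqrt_self e
  rw [h3, mul_one, h4] at h2
  have h5 : CFC.sqrt e * e * CFC.sqrt e = e * e := by
    calc CFC.sqrt e * e * CFC.sqrt e
        = CFC.sqrt e * (CFC.sqrt e * CFC.sqrt e) * CFC.sqrt e := by rw [h4]
      _ = (CFC.sqrt e * CFC.sqrt e) * (CFC.sqrt e * CFC.sqrt e) := by simp only [mul_assoc]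
      _ = e * e := by rw [h4]
  rwa [h5] at h2

theorem gainest_norm_mul {a b : B} {r s : ℝ} (ha : ‖a‖ ≤ r) (hb : ‖b‖ ≤ s) : ‖a * b‖ ≤ r * s :=
  (norm_mul_le _ _).trans (mul_le_mul ha hb (norm_nonneg _) ((norm_nonneg _).trans ha))

/-- Suppose `1 ≤ ‖η‖`. `‖ζ‖² ≤ 1001 / 1000`, so `‖l‖ ≤ 2`. Since `l x = 0`, the positive
contractions `(1/4) l⋆ l` and `x x` are orthogonal, so `(1/4) l⋆ l + x x ≤ 1` (e.g. for the sum
`s` one has `s s ≤ s`, so `‖s‖² ≤ ‖s‖`). Conjugating the last hypothesis by `w`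
(`η = b w = w⋆ b`) gives `th² η η ≤ η c⋆ x x c η`, hence
`(l c η)⋆ (l c η) ≤ 4 (η c⋆ c η - η c⋆ x x c η) ≤ 4 (1 - th²) η η` and
`‖l c η‖² ≤ 4 (1 - th²) ≤ 1 / 500`. On the other hand, with `Y = η c⋆ e c η`,
`(1/4) η η ≤ Y`, so `1 / 4 ≤ ‖Y‖ ≤ 1`, `y Y = Y`,
`l c η = ζ⋆ (z c y) η - (1/4) Y - (1/4) (ζ⋆ ζ - y) Y`, of norm at least
`1 / 16 - 1 / 4000 - 2 / 1000 > 1 / 20`. -/
theorem gain_est {b w c e ζ η x y z l : B} (hb : IsSelfAdjoint b) (hc : ‖c‖ ≤ 1) (he : 0 ≤ e)
    (he1 : ‖e‖ ≤ 1) (hη : IsSelfAdjoint η) (hη1 : ‖η‖ ≤ 1) (hw : η = b * w) (hyη : y * η = η)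
    (hy1 : ‖y‖ ≤ 1) (hz : IsSelfAdjoint z) (hzζ : z * ζ = ζ) (hzy : ‖z * c * y‖ ≤ 1 / 1000)
    (hζ : ‖star ζ * ζ - y‖ ≤ 1 / 1000) (hν : (1 / 4 : ℝ) • (b * b) ≤ b * star c * e * c * b)
    (hx : 0 ≤ x) (hx1 : ‖x‖ ≤ 1)
    (hl : l = star ζ - (1 / 4 : ℝ) • (star ζ * ζ * η * star c * e)) (hlx : l * x = 0)
    (h : (th ^ 2) • (b * b) ≤ b * star c * (x * x) * c * b) : ‖η‖ < 1 := by
  by_contra hcon
  have hη2 : ‖η‖ = 1 := le_antisymm hη1 (not_lt.1 hcon)
  have hxs : star x = x := (IsSelfAdjoint.of_nonneg hx).star_eq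
  have hw' : η = star w * b := by rw [← hη.star_eq, hw, star_mul, hb.star_eq]
  have hηη : ‖η * η‖ = 1 := by
    have := CStarRing.norm_star_mul_self (x := η)
    rwa [hη.star_eq, hη2, one_mul] at this
  have hζζ : ‖star ζ * ζ‖ ≤ 1001 / 1000 := by
    have := norm_add_le (star ζ * ζ - y) y
    rw [sub_add_cancel] at this
    linarith
  have hζ1 : ‖star ζ‖ ≤ 1001 / 1000 := by
    rw [CStarRing.norm_star_mul_self] at hζζ
    rw [norm_star]
    nlinarith [norm_nonneg ζ]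
  have hcs : ‖star c‖ ≤ 1 := by rwa [norm_star]
  have hl2 : ‖l‖ ≤ 2 := by
    have h1 := gainest_norm_mul (gainest_norm_mul (gainest_norm_mul hζζ hη1) hcs) he1
    have h2 := norm_sub_le (star ζ) ((1 / 4 : ℝ) • (star ζ * ζ * η * star c * e))
    rw [← hl, norm_smul, Real.norm_of_nonneg (by norm_num)] at h2
    linarith
  -- `l⋆ l ≤ 4 (1 - x x)`
  have hxx : x * x ≤ 1 := by
    have := gainest_star_mul_le hx1
    rwa [hxs, one_pow, one_smul] at this
  have hp : star l * l ≤ (4 : ℝ) • (1 - x * x) := by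
    have h1 := star_left_conjugate_le_conjugate (gainest_star_mul_le hl2) (1 - x * x)
    have h2 : l * (1 - x * x) = l := by rw [mul_sub, ← mul_assoc, hlx]; simp
    have h3 : star (1 - x * x) * (star l * l) * (1 - x * x) = star l * l := by
      rw [← mul_assoc, ← star_mul, h2, mul_assoc, h2]
    have h4 := star_left_conjugate_nonneg (sub_nonneg.2 hxx) x
    rw [h3] at h1
    refine h1.trans ?_
    rw [mul_smul_comm, smul_mul_assoc, mul_one, show (2 : ℝ) ^ 2 = 4 by norm_num]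
    refine smul_le_smul_of_nonneg_left ?_ (by norm_num)
    rw [← sub_nonneg]
    convert h4 using 1
    simp only [star_sub, star_one, star_mul, hxs]
    noncomm_ring
  have h1 : (th ^ 2) • (η * η) ≤ η * star c * (x * x) * c * η := by
    have := star_left_conjugate_le_conjugate h w
    convert this using 1
    · rw [mul_smul_comm, smul_mul_assoc, ← mul_assoc, ← hw', mul_assoc η, ← hw]
    · conv_lhs => rw [hw']
      rw [show star w * (b * star c * (x * x) * c * b) * w =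
        star w * b * star c * (x * x) * c * (b * w) by simp only [mul_assoc], ← hw, ← hw']
  have h2 : star (l * c * η) * (l * c * η) ≤ (4 * (1 - th ^ 2)) • (η * η) := by
    have h3 := star_left_conjugate_le_conjugate hp (c * η)
    have h4 := gainest_conj_le η hc
    rw [hη.star_eq] at h4
    have e1 : star (l * c * η) * (l * c * η) = star (c * η) * (star l * l) * (c * η) := by
      simp only [star_mul, mul_assoc]
    have e2 : star (c * η) * ((4 : ℝ) • (1 - x * x)) * (c * η) =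
        (4 : ℝ) • (η * (star c * c) * η - η * star c * (x * x) * c * η) := by
      rw [mul_smul_comm, smul_mul_assoc, star_mul, hη.star_eq]
      congr 1
      noncomm_ring
    rw [e1]
    refine h3.trans ?_
    rw [e2, mul_smul, sub_smul, one_smul]
    exact smul_le_smul_of_nonneg_left (sub_le_sub h4 h1) (by norm_num)
  have hth : 0 ≤ 4 * (1 - th ^ 2) ∧ 4 * (1 - th ^ 2) ≤ 1 / 500 := by
    unfold th; constructor <;> norm_num
  have h3 : ‖l * c * η‖ * ‖l * c * η‖ ≤ 1 / 500 := by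
    have := CStarAlgebra.norm_le_norm_of_nonneg_of_le (star_mul_self_nonneg _) h2
    rw [CStarRing.norm_star_mul_self, norm_smul, hηη, mul_one, Real.norm_of_nonneg hth.1] at this
    exact this.trans hth.2
  set Y := η * star c * e * c * η with hY
  have h4 : (1 / 4 : ℝ) • (η * η) ≤ Y := by
    have := star_left_conjugate_le_conjugate hν w
    convert this using 1
    · rw [mul_smul_comm, smul_mul_assoc, ← mul_assoc, ← hw', mul_assoc η, ← hw]
    · rw [show star w * (b * star c * e * c * b) * w =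
        star w * b * star c * e * c * (b * w) by simp only [mul_assoc], ← hw, ← hw']
  have h5 : 1 / 4 ≤ ‖Y‖ := by
    have h6 : 0 ≤ η * η := by
      have := star_mul_self_nonneg η
      rwa [hη.star_eq] at this
    have := CStarAlgebra.norm_le_norm_of_nonneg_of_le (smul_nonneg (by norm_num) h6) h4
    rwa [norm_smul, hηη, mul_one, Real.norm_of_nonneg (by norm_num)] at this
  have h6 : ‖Y‖ ≤ 1 := by
    have := gainest_norm_mul (gainest_norm_mul (gainest_norm_mul (gainest_norm_mul hη1 hcs) he1) hc)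
      hη1
    simpa using this
  have h7 : y * Y = Y := by
    simp only [hY, ← mul_assoc, hyη]
  have h8 : star ζ * z = star ζ := by rw [← hz.star_eq, ← star_mul, hzζ]
  have h9 : (1 / 4 : ℝ) • Y = star ζ * (z * c * y) * η - l * c * η -
      (1 / 4 : ℝ) • ((star ζ * ζ - y) * Y) := by
    have e1 : star ζ * (z * c * y) * η = star ζ * c * η := by
      rw [show star ζ * (z * c * y) * η = star ζ * z * c * (y * η) by simp only [mul_assoc], h8,
        hyη]
    rw [e1, hl, sub_mul (star ζ * ζ), h7, sub_mul, sub_mul, smul_mul_assoc, smul_mul_assoc,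
      show star ζ * ζ * η * star c * e * c * η = star ζ * ζ * Y by simp only [hY, mul_assoc],
      smul_sub]
    abel
  have h10 := gainest_norm_mul (gainest_norm_mul hζ1 hzy) hη1
  have h11 := gainest_norm_mul hζ h6
  have h12 : ‖(1 / 4 : ℝ) • Y‖ ≤ ‖star ζ * (z * c * y) * η‖ + ‖l * c * η‖ +
      ‖(1 / 4 : ℝ) • ((star ζ * ζ - y) * Y)‖ := by
    rw [h9]
    exact (norm_sub_le _ _).trans (add_le_add_left (norm_sub_le _ _) _)
  rw [norm_smul, norm_smul, Real.norm_of_nonneg (by norm_num)] at h12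
  have h13 : 1 / 20 ≤ ‖l * c * η‖ := by linarith
  nlinarith

/-- `ξ ξ⋆ ≤ 2 ξ₀ ξ₀ + (1/8) κ ξ₀ ξ₀ κ⋆ ≤ 2 e + (1/8) (25/16)` (`(s + t) (s + t)⋆ ≤ 2 s s⋆ + 2 t t⋆`,
`ξ₀ ξ₀ = e ξ₀ ξ₀ e ≤ e e ≤ e`), so
`th² b b ≤ (5/4) (2 b c⋆ e c b + (25/128) b b)`, using `b c⋆ c b ≤ b b`. -/
theorem gain_out {b c e κ ξ₀ ξ x : B} (hb : IsSelfAdjoint b) (hc : ‖c‖ ≤ 1) (he : 0 ≤ e)
    (he1 : ‖e‖ ≤ 1) (hξ₀ : IsSelfAdjoint ξ₀) (hξ₁ : ‖ξ₀‖ ≤ 1) (heξ : e * ξ₀ = ξ₀)
    (hκ : ‖κ‖ ≤ 5 / 4) (hξ : ξ = ξ₀ + (1 / 4 : ℝ) • (κ * ξ₀))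
    (hx : x * x ≤ (5 / 4 : ℝ) • (ξ * star ξ))
    (h : (th ^ 2) • (b * b) ≤ b * star c * (x * x) * c * b) :
    (1 / 4 : ℝ) • (b * b) ≤ b * star c * e * c * b := by
  set t := (1 / 4 : ℝ) • (κ * ξ₀) with ht
  have hes : star e = e := (IsSelfAdjoint.of_nonneg he).star_eq
  have h1 : ξ * star ξ ≤ (2 : ℝ) • (ξ₀ * ξ₀) + (2 : ℝ) • (t * star t) := by
    rw [← sub_nonneg]
    convert mul_star_self_nonneg (ξ₀ - t) using 1
    rw [hξ, star_add, star_sub, hξ₀.star_eq, two_smul, two_smul]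
    noncomm_ring
  have h2 : ξ₀ * ξ₀ ≤ e := by
    have h3 := gainest_conj_le e hξ₁
    have h4 : ξ₀ * e = ξ₀ := by rw [← hξ₀.star_eq, ← hes, ← star_mul, heξ]
    rw [hes, hξ₀.star_eq, ← mul_assoc, heξ, mul_assoc, h4] at h3
    exact h3.trans (gainest_sq_le he he1)
  have h3 : t * star t ≤ ((5 / 16 : ℝ) ^ 2) • (1 : B) := by
    have h4 : ‖star t‖ ≤ 5 / 16 := by
      rw [norm_star, ht, norm_smul, Real.norm_of_nonneg (by norm_num)]
      have := gainest_norm_mul hκ hξ₁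
      linarith
    simpa only [star_star] using gainest_star_mul_le h4
  have h4 : x * x ≤ (5 / 2 : ℝ) • e + (125 / 512 : ℝ) • (1 : B) := by
    refine hx.trans ((smul_le_smul_of_nonneg_left (h1.trans (add_le_add
      (smul_le_smul_of_nonneg_left h2 (by norm_num))
      (smul_le_smul_of_nonneg_left h3 (by norm_num)))) (by norm_num)).trans (le_of_eq ?_))
    rw [smul_add, smul_smul, smul_smul, smul_smul]
    norm_num
  have h5 := star_left_conjugate_le_conjugate h4 (c * b)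
  have h6 := gainest_conj_le b hc
  rw [hb.star_eq] at h6
  have e1 : star (c * b) * (x * x) * (c * b) = b * star c * (x * x) * c * b := by
    simp only [star_mul, hb.star_eq, mul_assoc]
  have e2 : star (c * b) * ((5 / 2 : ℝ) • e + (125 / 512 : ℝ) • (1 : B)) * (c * b) =
      (5 / 2 : ℝ) • (b * star c * e * c * b) + (125 / 512 : ℝ) • (b * (star c * c) * b) := by
    simp only [star_mul, hb.star_eq, mul_add, add_mul, mul_smul_comm, smul_mul_assoc, mul_one,
      one_mul, mul_assoc]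
  rw [e1, e2] at h5
  have h7 : (th ^ 2) • (b * b) ≤
      (5 / 2 : ℝ) • (b * star c * e * c * b) + (125 / 512 : ℝ) • (b * b) :=
    h.trans (h5.trans (add_le_add_right (smul_le_smul_of_nonneg_left h6 (by norm_num)) _))
  have h8 : 0 ≤ b * b := by
    have := star_mul_self_nonneg b
    rwa [hb.star_eq] at this
  rw [← sub_le_iff_le_add, ← sub_smul] at h7
  have h9 := smul_le_smul_of_nonneg_left h7 (show (0 : ℝ) ≤ 2 / 5 by norm_num)
  rw [smul_smul, smul_smul, show (2 / 5 : ℝ) * (5 / 2) = 1 by norm_num, one_smul] at h9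
  refine le_trans (smul_le_smul_of_nonneg_right ?_ h8) h9
  unfold th
  norm_num

end Crest.Agent.R110
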