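import Crest.Agent.R110.Ll
import Crest.Agent.R110.Orth

/-! Row 110: the pieces used in the gain step. -/

set_option autoImplicit false

namespace Crest.Agent.R110

open Crest.OpAlg (IsProperlyInfinite)

universe u

variable {B : Type u} [CStarAlgebra B] [PartialOrder B] [StarOrderedRing B]
variable {Q : Type u} [CStarAlgebra Q] [PartialOrder Q] [StarOrderedRing Q]

omit [PartialOrder B] [StarOrderedRing B] [PartialOrder Q] [StarOrderedRing Q] in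
theorem gainPc_sq_le (π : B →⋆ₐ[ℂ] Q) {u v : B} {ε : ℝ} (h : ‖star u * u - star v * v‖ < ε) :
    ‖π u‖ * ‖π u‖ ≤ ‖π v‖ * ‖π v‖ + ε ∧ ‖π v‖ * ‖π v‖ ≤ ‖π u‖ * ‖π u‖ + ε := by
  have h1 : ‖π (star u * u - star v * v)‖ ≤ ‖star u * u - star v * v‖ :=
    NonUnitalStarAlgHom.norm_apply_le π _
  rw [map_sub, map_mul, map_mul, map_star, map_star] at h1
  have h2 := abs_norm_sub_norm_le (star (π u) * π u) (star (π v) * π v)
  rw [CStarRing.norm_star_mul_self, CStarRing.norm_star_mul_self, abs_le] at h2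
  constructor <;> linarith [h2.1, h2.2]

theorem gainPc_cut (π : B →⋆ₐ[ℂ] Q) (u : B) {δ : ℝ} (hδ : 0 ≤ δ) (h : π (cut δ (u * star u)) = 0) :
    ‖π u‖ * ‖π u‖ ≤ δ := by
  rw [map_cut π δ (IsSelfAdjoint.mul_star_self u), map_mul, map_star,
    cut_eq_zero_iff (mul_star_self_nonneg _) hδ, CStarRing.norm_self_mul_star] at h
  exact h

/-- `exists_trunc` for `z = ξ ξ⋆`, `x = z k`, `x' = cut (4 / 5) z`. If `π` kills
`cut (1 / 10) x' = cut (9 / 10) z` then `‖π ξ‖² ≤ 9 / 10`; as `ξ₀⋆ ξ₀ ≤ ξ⋆ ξ`, `‖π ξ₀‖ < 1`, so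
`π a' = 0` (`Piece.map_eq_zero`). -/
theorem exists_piece_trunc {a a' ξ₀ ξ w : B} (h₀ : Piece a a' ξ₀) (hw : ξ = a * w)
    (hle : star ξ₀ * ξ₀ ≤ star ξ * ξ) :
    ∃ x k, Piece a a' x ∧ x = ξ * k ∧ x * x ≤ (5 / 4 : ℝ) • (ξ * star ξ) := by
  obtain ⟨k, -, h1, h2, h3, h4⟩ := exists_trunc (mul_star_self_nonneg ξ)
  refine ⟨ξ * star ξ * k, star ξ * k, ⟨h1, h2, ⟨w * (star ξ * k), by rw [← mul_assoc, ← hw, mul_assoc]⟩,
    cut (4 / 5) (ξ * star ξ), cut_nonneg _ _, h3, 1 / 10, by norm_num, fun P _ _ _ π hπ => ?_⟩,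
    mul_assoc _ _ _, h4⟩
  rw [cut_cut (IsSelfAdjoint.mul_star_self ξ) _ (by norm_num)] at hπ
  have h5 := gainPc_cut π ξ (by norm_num) hπ
  have h6 : star (π ξ₀) * π ξ₀ ≤ star (π ξ) * π ξ := by
    simpa only [map_mul, map_star] using OrderHomClass.mono π hle
  have h7 := CStarAlgebra.norm_le_norm_of_nonneg_of_le (star_mul_self_nonneg _) h6
  rw [CStarRing.norm_star_mul_self, CStarRing.norm_star_mul_self] at h7
  exact h₀.map_eq_zero π (by nlinarith [norm_nonneg (π ξ₀)])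

/-- Let `Sub a' (cut δ a)`, `ρ = δ² / 8`; `exists_orth` for `a` at tolerance `ρ / 4` gives
`u₁, u₂ ∈ a B`, `αᵢ = uᵢ uᵢ⋆`, `α₁ α₂ = 0`. Take `e = ramp ρ (2 ρ) α₁`,
`ξ₀ = ramp (2 ρ) (3 ρ) α₁` with core `cut (3 ρ) α₁` (if `cut (4 ρ) α₁` is killed by `π` then
`‖π a‖² ≤ 4 ρ + ρ / 4 ≤ δ²`), `β = cut (ρ / 2) α₂`, `e₂ = ramp (ρ / 4) (ρ / 2) α₂`. If `π β = 0`
then `‖π α₂‖ ≤ ρ / 2`, `‖π α₁‖ ≤ ρ`, `π e = 0`. -/
theorem exists_positions {a a' : B} (ha : 0 ≤ a) (hpi : Pi a) (hl : Ll a' a) :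
    ∃ e ξ₀ β e₂, 0 ≤ e ∧ ‖e‖ ≤ 1 ∧ Piece a a' ξ₀ ∧ e * ξ₀ = ξ₀ ∧ 0 ≤ β ∧ Pi β ∧ Sub e β ∧
      ‖e₂‖ ≤ 1 ∧ e₂ * β = β ∧ (∃ w, e₂ = a * w) ∧ e * e₂ = 0 ∧ ξ₀ * e₂ = 0 := by
  obtain ⟨δ, hδ, hsub⟩ := hl
  obtain ⟨ρ, hρδ⟩ : ∃ ρ : ℝ, ρ = δ ^ 2 / 8 := ⟨_, rfl⟩
  have hρ : 0 < ρ := by rw [hρδ]; positivity
  obtain ⟨r, s, ho, hr, hs⟩ := exists_orth hpi (ε := ρ / 4) (by positivity)
  have s₁ := IsSelfAdjoint.mul_star_self (a * r)
  have s₂ := IsSelfAdjoint.mul_star_self (a * s)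
  have h12 : a * r * star (a * r) * (a * s * star (a * s)) = 0 := by
    rw [mul_assoc (a * r), ← mul_assoc (star (a * r)), ho, zero_mul, mul_zero]
  obtain ⟨w₁, -, -, -, hw₁⟩ := exists_ramp_eq s₁ hρ (show ρ < 2 * ρ by linarith)
  obtain ⟨w₂, -, -, hw₂, hw₂'⟩ := exists_ramp_eq s₁ (show 0 < 2 * ρ by linarith)
    (show 2 * ρ < 3 * ρ by linarith)
  obtain ⟨w₃, -, -, hw₃, -⟩ := exists_ramp_eq s₂ (show 0 < ρ / 4 by linarith)
    (show ρ / 4 < ρ / 2 by linarith)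
  obtain ⟨w₄, -, hw₄, -⟩ := exists_cut_eq s₂ (show 0 < ρ / 2 by linarith)
  refine ⟨ramp ρ (2 * ρ) (a * r * star (a * r)), ramp (2 * ρ) (3 * ρ) (a * r * star (a * r)),
    cut (ρ / 2) (a * s * star (a * s)), ramp (ρ / 4) (ρ / 2) (a * s * star (a * s)),
    ramp_nonneg _ _ _, norm_ramp_le _ _ _,
    ⟨ramp_nonneg _ _ _, norm_ramp_le _ _ _, ⟨r * star (a * r) * w₂, by rw [hw₂]; simp only [mul_assoc]⟩,
      cut (3 * ρ) (a * r * star (a * r)), cut_nonneg _ _, ramp_mul_cut s₁ (by linarith) le_rfl,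
      ρ, hρ, fun P _ _ _ π hπ => ?_⟩,
    ramp_mul_ramp s₁ (by linarith) le_rfl (by linarith), cut_nonneg _ _,
    hpi.of_eq 1 (s * star (a * s) * w₄) (by rw [hw₄]; simp only [mul_assoc, one_mul]),
    fun P _ _ _ π hπ => ?_, norm_ramp_le _ _ _, ramp_mul_cut s₂ (by linarith) le_rfl,
    ⟨s * star (a * s) * w₃, by rw [hw₃]; simp only [mul_assoc]⟩, ?_, ?_⟩
  · rw [cut_cut s₁ _ hρ.le] at hπ
    have h1 := gainPc_cut π _ (by linarith) hπ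
    have h2 := (gainPc_sq_le π hr).2
    refine hsub P π ?_
    rw [map_cut π δ (IsSelfAdjoint.of_nonneg ha), cut_eq_zero_iff (map_nonneg π ha) hδ.le]
    exact abs_le_of_sq_le_sq' (by nlinarith) hδ.le |>.2
  · have h1 := gainPc_cut π _ (by linarith) hπ
    have h2 := (gainPc_sq_le π hs).2
    have h3 := (gainPc_sq_le π hr).1
    rw [map_ramp π _ _ s₁]
    refine ramp_eq_zero (s₁.map π) (by linarith) ?_
    rw [map_mul, map_star, CStarRing.norm_self_mul_star]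
    linarith
  · rw [hw₁, hw₃, mul_assoc w₁, ← mul_assoc _ _ w₃, h12, zero_mul, mul_zero]
  · rw [hw₂', hw₃, mul_assoc w₂, ← mul_assoc _ _ w₃, h12, zero_mul, mul_zero]

end Crest.Agent.R110
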