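import Crest.Agent.R110.Comp
import Crest.Agent.R110.GainEst
import Crest.Agent.R110.GainPc

/-! Row 110: the gain step for an arbitrary pair. -/

set_option autoImplicit false

namespace Crest.Agent.R110

open Crest.OpAlg (IsProperlyInfinite)

universe u

variable {B : Type u} [CStarAlgebra B] [PartialOrder B] [StarOrderedRing B]
variable {Q : Type u} [CStarAlgebra Q] [PartialOrder Q] [StarOrderedRing Q]

omit [PartialOrder B] [StarOrderedRing B] [PartialOrder Q] [StarOrderedRing Q] in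
lemma gain_norm_map (π : B →⋆ₐ[ℂ] Q) {x : B} {t : ℝ} (h : ‖x‖ ≤ t) : ‖π x‖ ≤ t :=
  (NonUnitalStarAlgHom.norm_apply_le π x).trans h

lemma gain_map_le (π : B →⋆ₐ[ℂ] Q) {x y : B} (h : x ≤ y) : π x ≤ π y :=
  OrderHomClass.mono π h

lemma gain_map_nonneg (π : B →⋆ₐ[ℂ] Q) {x : B} (h : 0 ≤ x) : 0 ≤ π x := by
  simpa using gain_map_le π h

omit [PartialOrder B] [StarOrderedRing B] [PartialOrder Q] [StarOrderedRing Q] in
lemma gain_map_smul (π : B →⋆ₐ[ℂ] Q) (t : ℝ) (x : B) : π (t • x) = t • π x := by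
  rw [← Complex.coe_smul, map_smul, Complex.coe_smul]

lemma gain_iff (π : B →⋆ₐ[ℂ] Q) {b c e : B} (hb : IsSelfAdjoint b) (he : IsSelfAdjoint e) :
    π (cut 0 ((1 / 4 : ℝ) • (b * b) - b * star c * e * c * b)) = 0 ↔
      (1 / 4 : ℝ) • (π b * π b) ≤ π b * star (π c) * π e * π c * π b := by
  have hν : IsSelfAdjoint ((1 / 4 : ℝ) • (b * b) - b * star c * e * c * b) := by
    simp only [IsSelfAdjoint, star_sub, star_smul, star_mul, star_star, hb.star_eq, he.star_eq,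
      star_trivial, mul_assoc]
  rw [map_cut π 0 hν, cut_zero_eq_zero_iff (hν.map π), map_sub, gain_map_smul, sub_nonpos]
  simp only [map_mul, map_star]

/-- Take `e, ξ₀, β, e₂` from `exists_positions` and `κ₁ > 0` with `Ll b' (cut (2 κ₁) b)`.
Let `ν = (1/4) b b - b c⋆ e c b` and `π` from `exists_quot (cut 0 ν)`; there
`(1/4) (π b)² ≤ π b (π c)⋆ π e π c π b`, so `Sub (π b) (π e)`, `Sub (π b) (π β)`. Put
`b₁ = cut κ₁ (π b)`; `Sub b₁ (π β)`, `Ll b₁ (π β)` (`ll_cut`, `Ll.of_sub`),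
`Ll (cut κ₁ b₁) b₁`. `diag_comp` for `(b₁, cut κ₁ b₁, π β, b₁, (π c)⋆, 1 / 1000)` gives pieces
`y` (core `y'`) and `z` (core `z'`) with `‖y (π c)⋆ z‖ ≤ 1 / 1000`. `exists_piece` and
`Piece.trans` give a piece `η` of `(b₁, cut κ₁ b₁)` with `y η = η`, and `η ∈ π b * Q`. Since
`Sub y z'` and `Pi z'` (`z' = z z' ∈ π β Q`), `exists_cuntz` gives `ζ = z' r` with
`‖ζ⋆ ζ - y‖ < 1 / 1000`; `z ζ = ζ`, `π e₂ ζ = ζ`, `π e ζ = 0`, `π ξ₀ ζ = 0`. Lift
`ζ η (π c)⋆ π e` (norm `≤ 11 / 10`) to `κ₀` with `‖κ₀‖ ≤ 5 / 4` and let `κ = e₂ κ₀`,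
`ξ = ξ₀ + (1/4) κ ξ₀ ∈ a B`. As `ξ₀ κ = 0`, `ξ⋆ ξ = ξ₀ ξ₀ + (1/16) (κ ξ₀)⋆ (κ ξ₀)`;
`exists_piece_trunc` gives `x = ξ k`. With `l = ζ⋆ - (1/4) ζ⋆ ζ η (π c)⋆ π e` one has
`l π ξ = 0` (`ζ⋆ π ξ₀ = 0`, `π e π ξ₀ = π ξ₀`, `π e ζ = 0`). Apply `exists_piece_of_test` with
`b'' = cut (2 κ₁) b`, `θ = th`: for `ρ` as in its hypothesis, `gain_out` gives `ρ ν ≤ 0`, so
`ρ = ρ' ∘ π`, and `gain_est` (for the images under `ρ'`) gives `‖ρ' η‖ < 1`, so
`ρ' (cut κ₁ b₁) = 0`, i.e. `ρ (cut (2 κ₁) b) = 0` (`cut_cut`, `map_cut`). -/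
theorem diag_gain {a a' b b' c : B} (ha : 0 ≤ a) (hb : 0 ≤ b) (hpi : Pi a) (hla : Ll a' a)
    (hlb : Ll b' b) (hc : ‖c‖ ≤ 1) : Diag a a' b b' c th := by
  obtain ⟨e, ξ₀, β, e₂, he, he1, hξ₀, heξ, hβ, hpiβ, heβ, he₂1, he₂β, ⟨w₂, hw₂⟩, hee₂, hξe₂⟩ :=
    exists_positions ha hpi hla
  have hbs : IsSelfAdjoint b := IsSelfAdjoint.of_nonneg hb
  have hes : IsSelfAdjoint e := IsSelfAdjoint.of_nonneg he
  have hξs : IsSelfAdjoint ξ₀ := IsSelfAdjoint.of_nonneg hξ₀.1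
  obtain ⟨γ, hγ, hlγ⟩ := hlb.interp hbs
  have hκ₁ : 0 < γ / 2 := half_pos hγ
  obtain ⟨P, _, _, _, π, hsurj, hker, hlift⟩ :=
    exists_quot (cut 0 ((1 / 4 : ℝ) • (b * b) - b * star c * e * c * b))
  have hπν := (hker _).mpr (Sub.refl _)
  have hπb : 0 ≤ π b := gain_map_nonneg π hb
  have hπbs : IsSelfAdjoint (π b) := hbs.map π
  have hπβ : 0 ≤ π β := gain_map_nonneg π hβ
  have hbe : Sub (π b) (π e) := by
    intro R _ _ _ ρ hρ
    have h1 := (gain_iff (c := c) (ρ.comp π) hbs hes).mp (by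
      rw [StarAlgHom.comp_apply, hπν, map_zero])
    simp only [StarAlgHom.comp_apply, hρ, mul_zero, zero_mul] at h1
    have h2 : IsSelfAdjoint (ρ (π b)) := hπbs.map ρ
    have h3 : 0 ≤ ρ (π b) * ρ (π b) := by
      simpa [h2.star_eq] using star_mul_self_nonneg (ρ (π b))
    have h4 : (1 / 4 : ℝ) • (ρ (π b) * ρ (π b)) = 0 :=
      le_antisymm h1 (smul_nonneg (by norm_num) h3)
    have h5 : star (ρ (π b)) * ρ (π b) = 0 := by
      rw [h2.star_eq]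
      exact (smul_eq_zero.mp h4).resolve_left (by norm_num)
    exact (CStarRing.star_mul_self_eq_zero_iff _).mp h5
  have hbβ : Sub (π b) (π β) := hbe.trans (heβ.map π)
  set b₁ := cut (γ / 2) (π b) with hb₁
  have hb₁0 : 0 ≤ b₁ := cut_nonneg _ _
  have hl₁ : Ll b₁ (π β) := (ll_cut (π b) hκ₁).of_sub hπb hπβ hbβ
  obtain ⟨y, z, ⟨hy0, hy1, ⟨wy, hwy⟩, y', hy'0, hyy', hly'⟩,
      ⟨hz0, hz1, ⟨wz, hwz⟩, z', hz'0, hzz', hlz'⟩, hyz⟩ :=
    diag_comp (star (π c)) hb₁0 hπβ (hpiβ.map π hsurj)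
      (hl₁.sub (IsSelfAdjoint.of_nonneg hπβ)) (ll_cut b₁ hκ₁) hl₁
      (by norm_num : (0 : ℝ) < 1 / 1000)
  obtain ⟨k₀, -, hη₀⟩ := exists_piece (a := y') (w := 1) hy'0 (mul_one _).symm hly'
  obtain ⟨hη, hyη⟩ := Piece.trans ⟨wy, hwy⟩ hyy' hη₀
  generalize y' * k₀ = η at hη hyη
  obtain ⟨wb, -, hwb, -⟩ := exists_cut_eq hπbs hκ₁
  obtain ⟨wη, hwη⟩ := hη.2.2.1
  have hηb : η = π b * (wb * wη) := by rw [hwη, hb₁, hwb, mul_assoc]
  have hz'β : z' = π β * (wz * z') := by rw [← mul_assoc, ← hwz, hzz']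
  have hpiz : Pi z' := (hpiβ.map π hsurj).of_eq 1 (wz * z') (by rw [one_mul]; exact hz'β)
  have hyz' : Sub y z' := by
    rw [hwy]; exact (hlz'.sub (IsSelfAdjoint.of_nonneg hz'0)).mul_right wy
  obtain ⟨r, hr⟩ := exists_cuntz hpiz hy0 hyz' (by norm_num : (0 : ℝ) < 1 / 1000)
  have hzζ : z * (z' * r) = z' * r := by rw [← mul_assoc, hzz']
  have he₂ζ : π e₂ * (z' * r) = z' * r := by
    have : π e₂ * z' = z' := by
      conv_lhs => rw [hz'β, ← mul_assoc, ← map_mul, he₂β]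
      exact hz'β.symm
    rw [← mul_assoc, this]
  generalize z' * r = ζ at hr hzζ he₂ζ
  have heζ : π e * ζ = 0 := by rw [← he₂ζ, ← mul_assoc, ← map_mul, hee₂, map_zero, zero_mul]
  have hξζ : π ξ₀ * ζ = 0 := by rw [← he₂ζ, ← mul_assoc, ← map_mul, hξe₂, map_zero, zero_mul]
  have hζξ : star ζ * π ξ₀ = 0 := by
    have := congrArg star hξζ
    rwa [star_mul, star_zero, (hξs.map π).star_eq] at this
  have hζ1 : ‖ζ‖ ≤ 11 / 10 := by
    have h1 : ‖ζ‖ * ‖ζ‖ ≤ 1001 / 1000 := by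
      rw [← CStarRing.norm_star_mul_self]
      have := norm_add_le (star ζ * ζ - y) y
      rw [sub_add_cancel] at this
      linarith
    nlinarith [norm_nonneg ζ]
  have hK : ‖ζ * η * star (π c) * π e‖ ≤ 11 / 10 := by
    have h1 : ‖star (π c)‖ ≤ 1 := by rw [norm_star]; exact gain_norm_map π hc
    have h2 : ‖π e‖ ≤ 1 := gain_norm_map π he1
    have h3 : ‖ζ * η‖ ≤ 11 / 10 * 1 :=
      (norm_mul_le _ _).trans (mul_le_mul hζ1 hη.2.1 (norm_nonneg _) (by norm_num))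
    have h4 : ‖ζ * η * star (π c)‖ ≤ 11 / 10 * 1 * 1 :=
      (norm_mul_le _ _).trans (mul_le_mul h3 h1 (norm_nonneg _) (by norm_num))
    have h5 : ‖ζ * η * star (π c) * π e‖ ≤ 11 / 10 * 1 * 1 * 1 :=
      (norm_mul_le _ _).trans (mul_le_mul h4 h2 (norm_nonneg _) (by norm_num))
    linarith
  obtain ⟨κ₀, hκ₀, hκ₀1⟩ := hlift (ζ * η * star (π c) * π e) (1 / 10) (by norm_num)
  have hκ1 : ‖e₂ * κ₀‖ ≤ 5 / 4 := by
    have := (norm_mul_le e₂ κ₀).trans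
      (mul_le_mul he₂1 (hκ₀1.le.trans (add_le_add hK le_rfl)) (norm_nonneg _) zero_le_one)
    linarith
  have hπκ : π (e₂ * κ₀) = ζ * η * star (π c) * π e := by
    rw [map_mul, hκ₀, ← mul_assoc, ← mul_assoc, ← mul_assoc, he₂ζ]
  have hξκ : ξ₀ * (e₂ * κ₀) = 0 := by rw [← mul_assoc, hξe₂, zero_mul]
  obtain ⟨wξ, hwξ⟩ := hξ₀.2.2.1
  have hξa : ξ₀ + (1 / 4 : ℝ) • (e₂ * κ₀ * ξ₀) = a * (wξ + (1 / 4 : ℝ) • (w₂ * κ₀ * ξ₀)) := by
    rw [mul_add, ← hwξ, mul_smul_comm, ← mul_assoc, ← mul_assoc, ← hw₂]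
  generalize e₂ * κ₀ = κ at hκ1 hπκ hξκ hξa
  have hle : star ξ₀ * ξ₀ ≤
      star (ξ₀ + (1 / 4 : ℝ) • (κ * ξ₀)) * (ξ₀ + (1 / 4 : ℝ) • (κ * ξ₀)) := by
    have h1 : star ξ₀ * ((1 / 4 : ℝ) • (κ * ξ₀)) = 0 := by
      rw [hξs.star_eq, mul_smul_comm, ← mul_assoc, hξκ, zero_mul, smul_zero]
    have h2 : star ((1 / 4 : ℝ) • (κ * ξ₀)) * ξ₀ = 0 := by
      have := congrArg star h1
      rwa [star_mul, star_star, star_zero] at this
    rw [star_add, add_mul, mul_add, mul_add, h1, h2, add_zero, zero_add]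
    exact le_add_of_nonneg_right (star_mul_self_nonneg _)
  obtain ⟨x, k, hx, hxk, hxx⟩ := exists_piece_trunc hξ₀ hξa hle
  have hlξ : (star ζ - (1 / 4 : ℝ) • (star ζ * ζ * η * star (π c) * π e)) * π x = 0 := by
    have h1 : π e * π ξ₀ = π ξ₀ := by rw [← map_mul, heξ]
    have h2 : ∀ t, π e * (ζ * t) = 0 := fun t => by rw [← mul_assoc, heζ, zero_mul]
    rw [hxk, map_mul, ← mul_assoc, map_add, gain_map_smul, map_mul, hπκ]
    simp only [mul_add, sub_mul, mul_smul_comm, smul_mul_assoc, mul_assoc, h1, h2, hζξ, mul_zero,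
      smul_zero, sub_zero, zero_sub, neg_add_cancel, zero_mul]
  have hth : 0 ≤ th := by unfold th; norm_num
  obtain ⟨y₂, hy₂, hxy₂⟩ := exists_piece_of_test (c := c) hb (IsSelfAdjoint.of_nonneg hx.1) hth
    (cut_nonneg γ b) hlγ (by
      intro R _ _ _ ρ hρ
      have h1 := gain_out (hbs.map ρ) (gain_norm_map ρ hc) (gain_map_nonneg ρ he)
        (gain_norm_map ρ he1) (hξs.map ρ) (gain_norm_map ρ hξ₀.2.1) (by rw [← map_mul, heξ])
        (gain_norm_map ρ hκ1) (ξ := ρ (ξ₀ + (1 / 4 : ℝ) • (κ * ξ₀))) (x := ρ x)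
        (by rw [map_add, gain_map_smul, map_mul])
        (by simpa only [map_mul, gain_map_smul, map_star] using gain_map_le ρ hxx) hρ
      have h2 := (gain_iff (c := c) ρ hbs hes).mpr h1
      obtain ⟨ρ', hρ'⟩ := exists_factor π hsurj ρ fun t ht => (hker t).mp ht R ρ h2
      have h3 : ‖ρ' z * ρ c * ρ' y‖ ≤ 1 / 1000 := by
        have := gain_norm_map ρ' hyz
        rw [← norm_star] at this
        simpa only [map_mul, map_star, star_mul, star_star, hρ', mul_assoc,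
          ((IsSelfAdjoint.of_nonneg hz0).map ρ').star_eq,
          ((IsSelfAdjoint.of_nonneg hy0).map ρ').star_eq] using this
      have h4 := gain_est (w := ρ' (wb * wη)) (ζ := ρ' ζ) (η := ρ' η) (y := ρ' y) (z := ρ' z)
        (l := ρ' (star ζ - (1 / 4 : ℝ) • (star ζ * ζ * η * star (π c) * π e)))
        (hbs.map ρ) (gain_norm_map ρ hc) (gain_map_nonneg ρ he) (gain_norm_map ρ he1)
        ((IsSelfAdjoint.of_nonneg hη.1).map ρ') (gain_norm_map ρ' hη.2.1)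
        (by rw [← hρ', ← map_mul, ← hηb]) (by rw [← map_mul, hyη]) (gain_norm_map ρ' hy1)
        ((IsSelfAdjoint.of_nonneg hz0).map ρ') (by rw [← map_mul, hzζ]) h3
        (by simpa only [map_mul, map_sub, map_star] using gain_norm_map ρ' hr.le) h1
        (gain_map_nonneg ρ hx.1) (gain_norm_map ρ hx.2.1)
        (by simp only [map_sub, gain_map_smul, map_mul, map_star, hρ'])
        (by rw [← hρ' x, ← map_mul, hlξ, map_zero]) hρ
      have h5 := hη.map_eq_zero ρ' h4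
      rwa [hb₁, cut_cut hπbs _ hκ₁.le, add_halves, ← map_cut π γ hbs, hρ'] at h5)
  exact ⟨x, y₂, hx, hy₂, hxy₂⟩

end Crest.Agent.R110
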