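import Crest.Agent.R110.Cut

/-! Row 110: closed ideals tested in quotients. -/

set_option autoImplicit false

namespace Crest.Agent.R110

open Crest.OpAlg (IsProperlyInfinite)

universe u

variable {B : Type u} [CStarAlgebra B] [PartialOrder B] [StarOrderedRing B]
variable {Q : Type u} [CStarAlgebra Q] [PartialOrder Q] [StarOrderedRing Q]

set_option linter.unusedSectionVars false

theorem ideal_continuous {B Q : Type u} [CStarAlgebra B] [CStarAlgebra Q] (π : B →⋆ₐ[ℂ] Q) :
    Continuous π :=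
  AddMonoidHomClass.continuous_of_bound π 1 fun x => by
    simpa using NonUnitalStarAlgHom.norm_apply_le π x

theorem ideal_sub_zero (z : B) : Sub 0 z := fun _ _ _ _ π _ => map_zero π

theorem ideal_sub_add {x y z : B} (h : Sub x z) (h' : Sub y z) : Sub (x + y) z :=
  fun Q _ _ _ π hz => by rw [map_add, h Q π hz, h' Q π hz, add_zero]

theorem ideal_sub_neg {x z : B} (h : Sub x z) : Sub (-x) z :=
  fun Q _ _ _ π hz => by rw [map_neg, h Q π hz, neg_zero]

theorem Sub.refl (x : B) : Sub x x := by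
  exact fun _ _ _ _ _ h => h

theorem Sub.trans {x y z : B} (h : Sub x y) (h' : Sub y z) : Sub x z := by
  exact fun Q _ _ _ π hz => h Q π (h' Q π hz)

theorem Sub.mul_left {x z : B} (h : Sub x z) (u : B) : Sub (u * x) z := by
  exact fun Q _ _ _ π hz => by rw [map_mul, h Q π hz, mul_zero]

theorem Sub.mul_right {x z : B} (h : Sub x z) (u : B) : Sub (x * u) z := by
  exact fun Q _ _ _ π hz => by rw [map_mul, h Q π hz, zero_mul]

theorem Sub.map {x z : B} (h : Sub x z) (π : B →⋆ₐ[ℂ] Q) : Sub (π x) (π z) := by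
  exact fun P _ _ _ ρ hz => h P (ρ.comp π) hz

/-- `Crest.Agent.R117.exists_cstar_quotient` with `CStarAlgebra.spectralOrder`. -/
theorem Sub.mem_of_isClosed {x z : B} (h : Sub x z) (K : TwoSidedIdeal B)
    (hK : IsClosed (K : Set B)) (hz : z ∈ K) : x ∈ K := by
  obtain ⟨P, _, π, -, h2, -⟩ := R117.exists_cstar_quotient B K hK
  let _ := CStarAlgebra.spectralOrder P
  let _ := CStarAlgebra.spectralOrderedRing P
  exact (h2 x).1 (h P π ((h2 z).2 hz))

/-- `{x | Sub x z}` is a closed two-sided ideal (an intersection of kernels of continuous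
homomorphisms; `TwoSidedIdeal.mk'`); apply `Crest.Agent.R117.exists_cstar_quotient`. -/
theorem exists_quot (z : B) :
    ∃ (P : Type u) (_ : CStarAlgebra P) (_ : PartialOrder P) (_ : StarOrderedRing P)
      (π : B →⋆ₐ[ℂ] P), Function.Surjective π ∧ (∀ x, π x = 0 ↔ Sub x z) ∧
      ∀ (y : P) (ε : ℝ), 0 < ε → ∃ x, π x = y ∧ ‖x‖ < ‖y‖ + ε := by
  let K : TwoSidedIdeal B := TwoSidedIdeal.mk' {x | Sub x z} (ideal_sub_zero z)
    (fun hx hy => ideal_sub_add hx hy) (fun hx => ideal_sub_neg hx)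
    (fun {x y} hy => Sub.mul_left hy x) (fun {x y} hx => Sub.mul_right hx y)
  have hK : ∀ x, x ∈ K ↔ Sub x z := fun x => TwoSidedIdeal.mem_mk' ..
  have hKc : IsClosed (K : Set B) := by
    refine isClosed_of_closure_subset fun x hx => (hK x).2 fun Q _ _ _ π hz => ?_
    have h1 : IsClosed {y | π y = 0} := isClosed_eq (ideal_continuous π) continuous_const
    exact h1.closure_subset_iff.2 (fun y hy => (hK y).1 hy Q π hz) hx
  obtain ⟨P, _, π, h1, h2, h3⟩ := R117.exists_cstar_quotient B K hKc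
  refine ⟨P, inferInstance, CStarAlgebra.spectralOrder P, CStarAlgebra.spectralOrderedRing P, π, h1,
    fun x => (h2 x).trans (hK x), fun y ε hε => ?_⟩
  obtain ⟨x, rfl⟩ := h1 y
  obtain ⟨j, hj, h4⟩ := h3 x ε hε
  exact ⟨x - j, by rw [map_sub, (h2 j).2 hj, sub_zero], h4⟩

/-- `ρ' = ρ ∘ Function.surjInv hπ`. -/
theorem exists_factor {P : Type u} [CStarAlgebra P] (π : B →⋆ₐ[ℂ] Q)
    (hπ : Function.Surjective π) (ρ : B →⋆ₐ[ℂ] P) (h : ∀ x, π x = 0 → ρ x = 0) :
    ∃ ρ' : Q →⋆ₐ[ℂ] P, ∀ x, ρ' (π x) = ρ x := by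
  have key : ∀ x, ρ (Function.surjInv hπ (π x)) = ρ x := fun x => by
    rw [← sub_eq_zero, ← map_sub]
    exact h _ (by rw [map_sub, Function.surjInv_eq hπ, sub_self])
  refine ⟨{ toFun := fun y => ρ (Function.surjInv hπ y)
            map_one' := by rw [← map_one π, key, map_one]
            map_mul' := fun a b => ?_
            map_zero' := by rw [← map_zero π, key, map_zero]
            map_add' := fun a b => ?_
            commutes' := fun c => by rw [← AlgHomClass.commutes π, key, AlgHomClass.commutes]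
            map_star' := fun a => ?_ }, key⟩
  · obtain ⟨a, rfl⟩ := hπ a
    obtain ⟨b, rfl⟩ := hπ b
    rw [← map_mul, key, key, key, map_mul]
  · obtain ⟨a, rfl⟩ := hπ a
    obtain ⟨b, rfl⟩ := hπ b
    rw [← map_add, key, key, key, map_add]
  · obtain ⟨a, rfl⟩ := hπ a
    rw [← map_star, key, key, map_star]

/-- A homomorphism killing `m` kills the kernel of `π`, hence factors through `π`. -/
theorem Sub.pullback (π : B →⋆ₐ[ℂ] Q) (hπ : Function.Surjective π) {b m : B}
    (hker : ∀ x, π x = 0 → Sub x m) (h : Sub (π b) (π m)) : Sub b m := by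
  intro P _ _ _ ρ hm
  obtain ⟨ρ', hρ⟩ := exists_factor π hπ ρ fun x hx => hker x hx P ρ hm
  rw [← hρ] at hm ⊢
  exact h P ρ' hm

/-- The closure `K` of `{u + j | Sub u z, π j = 0}` is a closed two-sided ideal; the quotient map
by `K` factors through `π` and kills `z`, hence kills `x`. -/
theorem Sub.approx (π : B →⋆ₐ[ℂ] Q) (hπ : Function.Surjective π) {x z : B}
    (h : Sub (π x) (π z)) {η : ℝ} (hη : 0 < η) :
    ∃ u j, Sub u z ∧ π j = 0 ∧ ‖x - u - j‖ < η := by
  let J : TwoSidedIdeal B := TwoSidedIdeal.mk' {y | ∃ u j, Sub u z ∧ π j = 0 ∧ y = u + j}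
    ⟨0, 0, ideal_sub_zero z, map_zero π, by simp⟩
    (by
      rintro _ _ ⟨u, j, h1, h2, rfl⟩ ⟨u', j', h3, h4, rfl⟩
      exact ⟨u + u', j + j', ideal_sub_add h1 h3, by rw [map_add, h2, h4, add_zero], by abel⟩)
    (by
      rintro _ ⟨u, j, h1, h2, rfl⟩
      exact ⟨-u, -j, ideal_sub_neg h1, by rw [map_neg, h2, neg_zero], by abel⟩)
    (by
      rintro c _ ⟨u, j, h1, h2, rfl⟩
      exact ⟨c * u, c * j, h1.mul_left c, by rw [map_mul, h2, mul_zero], mul_add _ _ _⟩)
    (by
      rintro _ c ⟨u, j, h1, h2, rfl⟩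
      exact ⟨u * c, j * c, h1.mul_right c, by rw [map_mul, h2, zero_mul], add_mul _ _ _⟩)
  have hJ : ∀ y, y ∈ J ↔ ∃ u j, Sub u z ∧ π j = 0 ∧ y = u + j := fun y => TwoSidedIdeal.mem_mk' ..
  let K : TwoSidedIdeal B := TwoSidedIdeal.mk' (closure (J : Set B))
    (subset_closure J.zero_mem)
    (fun {x y} hx hy => map_mem_closure₂ continuous_add hx hy fun _ ha _ hb => J.add_mem ha hb)
    (fun {x} hx => map_mem_closure continuous_neg hx fun _ ha => J.neg_mem ha)
    (fun {x y} hy => map_mem_closure (continuous_const_mul x) hy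
      fun _ ha => J.mul_mem_left _ _ ha)
    (fun {x y} hx => map_mem_closure (f := fun a => a * y) (continuous_mul_const y) hx
      fun _ ha => J.mul_mem_right _ _ ha)
  have hK : ∀ x, x ∈ K ↔ x ∈ closure (J : Set B) := fun x => TwoSidedIdeal.mem_mk' ..
  have hKc : IsClosed (K : Set B) := by
    have : (K : Set B) = closure (J : Set B) := Set.ext hK
    rw [this]
    exact isClosed_closure
  obtain ⟨P, _, ρ, -, h2, -⟩ := R117.exists_cstar_quotient B K hKc
  let _ := CStarAlgebra.spectralOrder P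
  let _ := CStarAlgebra.spectralOrderedRing P
  obtain ⟨ρ', hρ⟩ := exists_factor π hπ ρ fun j hj =>
    (h2 j).2 ((hK j).2 (subset_closure ((hJ j).2 ⟨0, j, ideal_sub_zero z, hj, by simp⟩)))
  have hz : ρ' (π z) = 0 := by
    rw [hρ]
    exact (h2 z).2 ((hK z).2 (subset_closure ((hJ z).2 ⟨z, 0, Sub.refl z, map_zero π, by simp⟩)))
  have hx := h P ρ' hz
  rw [hρ] at hx
  obtain ⟨y, hy, hd⟩ := Metric.mem_closure_iff.1 ((hK x).1 ((h2 x).1 hx)) η hη
  obtain ⟨u, j, h3, h4, rfl⟩ := (hJ y).1 hy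
  exact ⟨u, j, h3, h4, by rwa [dist_eq_norm, ← sub_sub] at hd⟩

theorem Pi.of_eq {a x : B} (h : Pi a) (u v : B) (hx : x = u * a * v) : Pi x := by
  intro u' v'
  have := h (u' * u) (v * v')
  rwa [show u' * u * a * (v * v') = u' * x * v' by rw [hx]; simp only [mul_assoc]] at this

theorem Pi.pinf {a : B} (h : Pi a) : IsProperlyInfinite (star a * a) := by
  simpa using h 1 1

/-- Star homomorphisms are contractive (`NonUnitalStarAlgHom.norm_apply_le`). -/
theorem Pi.map {a : B} (h : Pi a) (π : B →⋆ₐ[ℂ] Q) (hπ : Function.Surjective π) : Pi (π a) := by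
  intro u v ε hε
  obtain ⟨u, rfl⟩ := hπ u
  obtain ⟨v, rfl⟩ := hπ v
  obtain ⟨r, s, h1, h2, h3⟩ := h u v ε hε
  refine ⟨π r, π s, ?_, ?_, ?_⟩
  · simpa only [map_sub, map_mul, map_star] using (NonUnitalStarAlgHom.norm_apply_le π _).trans_lt h1
  · simpa only [map_sub, map_mul, map_star] using (NonUnitalStarAlgHom.norm_apply_le π _).trans_lt h2
  · simpa only [map_sub, map_mul, map_star] using (NonUnitalStarAlgHom.norm_apply_le π _).trans_lt h3

end Crest.Agent.R110
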