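import Crest.Agent.R110.Gain

/-! Row 110: iteration of the gain step. -/

set_option autoImplicit false

namespace Crest.Agent.R110

open Crest.OpAlg (IsProperlyInfinite)

universe u

variable {B : Type u} [CStarAlgebra B] [PartialOrder B] [StarOrderedRing B]
variable {Q : Type u} [CStarAlgebra Q] [PartialOrder Q] [StarOrderedRing Q]

theorem iter_aux {a' b' : B} (n : ℕ) : ∀ (a b c : B) (M : ℝ), 0 ≤ a → 0 ≤ b → Pi a → Ll a' a →
    Ll b' b → 0 < M → ‖c‖ ≤ M → Diag a a' b b' c (th ^ n * M) := by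
  induction n with
  | zero =>
    intro a b c M ha hb _ hla hlb hM hc
    obtain ⟨k, -, hk⟩ := exists_piece (a := a) (w := 1) ha (mul_one a).symm hla
    obtain ⟨l, -, hl⟩ := exists_piece (a := b) (w := 1) hb (mul_one b).symm hlb
    refine ⟨_, _, hk, hl, ?_⟩
    have h1 := hk.2.1
    have h2 := hl.2.1
    calc ‖a * k * c * (b * l)‖ ≤ ‖a * k‖ * ‖c‖ * ‖b * l‖ :=
          (norm_mul_le _ _).trans (mul_le_mul_of_nonneg_right (norm_mul_le _ _) (norm_nonneg _))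
      _ ≤ 1 * M * 1 := by gcongr
      _ = th ^ 0 * M := by ring
  | succ n ih =>
    intro a b c M ha hb hpi hla hlb hM hc
    have hth : 0 < th := by unfold th; norm_num
    have hc' : ‖(M⁻¹ : ℝ) • c‖ ≤ 1 := by
      rw [norm_smul, Real.norm_eq_abs, abs_of_pos (inv_pos.2 hM), inv_mul_le_iff₀ hM, mul_one]
      exact hc
    obtain ⟨x, y, hx, hy, hxy⟩ := diag_gain ha hb hpi hla hlb hc'
    have hxy' : ‖x * c * y‖ ≤ th * M := by
      rw [mul_smul_comm, smul_mul_assoc, norm_smul, Real.norm_eq_abs, abs_of_pos (inv_pos.2 hM),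
        inv_mul_le_iff₀ hM] at hxy
      linarith [mul_comm M th]
    obtain ⟨hx0, -, ⟨w, hw⟩, x', hx'0, hxx', hlx⟩ := hx
    obtain ⟨hy0, -, ⟨w', hw'⟩, y', hy'0, hyy', hly⟩ := hy
    have hpx : Pi x' := hpi.of_eq 1 (w * x') (by rw [one_mul, ← mul_assoc, ← hw, hxx'])
    obtain ⟨x₂, y₂, hx₂, hy₂, h₂⟩ := ih x' y' (x * c * y) (th * M) hx'0 hy'0 hpx hlx hly
      (mul_pos hth hM) hxy'
    obtain ⟨hx₃, hxx₂⟩ := Piece.trans ⟨w, hw⟩ hxx' hx₂
    obtain ⟨hy₃, hyy₂⟩ := Piece.trans ⟨w', hw'⟩ hyy' hy₂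
    have hx₂x : x₂ * x = x₂ := by
      have h := congrArg star hxx₂
      rwa [star_mul, (IsSelfAdjoint.of_nonneg hx0).star_eq,
        (IsSelfAdjoint.of_nonneg hx₃.1).star_eq] at h
    refine ⟨x₂, y₂, hx₃, hy₃, ?_⟩
    have e : x₂ * (x * c * y) * y₂ = x₂ * c * y₂ := by
      calc x₂ * (x * c * y) * y₂ = (x₂ * x) * c * (y * y₂) := by simp only [mul_assoc]
        _ = x₂ * c * y₂ := by rw [hx₂x, hyy₂]
    rw [e] at h₂
    calc _ ≤ th ^ n * (th * M) := h₂
      _ = th ^ (n + 1) * M := by ring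

/-- Induction on `n`: for all `a b c`, `‖c‖ ≤ M` (`0 < M`) implies
`Diag a a' b b' c (th ^ n * M)`. For `n = 0` use `exists_piece` with `z = a`. For the step apply
`diag_gain` to `M⁻¹ • c`, getting `x, y` with cores `x', y'`, apply the induction hypothesis to
`(x', y', x c y)` with `th * M` (`Pi x'` as `x' = x x' ∈ a B`), and use `Piece.trans`:
`x₂ c y₂ = x₂ (x c y) y₂`. -/
theorem diag {a a' b b' : B} (c : B) (ha : 0 ≤ a) (hb : 0 ≤ b) (hpi : Pi a) (hla : Ll a' a)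
    (hlb : Ll b' b) {ε : ℝ} (hε : 0 < ε) : Diag a a' b b' c ε := by
  have hM : 0 < ‖c‖ + 1 := by positivity
  obtain ⟨n, hn⟩ := exists_pow_lt_of_lt_one (div_pos hε hM) (show th < 1 by unfold th; norm_num)
  obtain ⟨x, y, hx, hy, h⟩ := iter_aux n a b c (‖c‖ + 1) ha hb hpi hla hlb hM (by linarith)
  refine ⟨x, y, hx, hy, h.trans ?_⟩
  exact ((lt_div_iff₀ hM).1 hn).le

theorem iter_side {a g x : B} {δ : ℝ} (ha : 0 ≤ a) (hpa : Pi a) (hδ : 0 < δ)
    (hg : IsSelfAdjoint g) (hga : g * a * g * cut δ a = cut δ a)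
    (hx : Piece (cut δ a) (cut (δ + δ) a) x) :
    ∃ X : B, x * X = X ∧ (∃ u v, g * X = u * a * v) ∧
      star (g * X) * a * (g * X) = star X * X ∧ ‖star X * X - a‖ < 3 * δ := by
  have has : IsSelfAdjoint a := IsSelfAdjoint.of_nonneg ha
  obtain ⟨w₀, -, hw₀, -⟩ := exists_cut_eq has hδ
  obtain ⟨-, -, ⟨w, hw⟩, x', hx'0, hxx', hlx⟩ := hx
  have hpx : Pi x' := hpa.of_eq 1 (w₀ * w * x') (by
    calc x' = x * x' := hxx'.symm
      _ = a * w₀ * w * x' := by rw [hw, hw₀]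
      _ = 1 * a * (w₀ * w * x') := by simp only [one_mul, mul_assoc])
  obtain ⟨r, hr⟩ := exists_cuntz hpx (cut_nonneg (δ + δ) a)
    (hlx.sub (IsSelfAdjoint.of_nonneg hx'0)) hδ
  have hX : x * (x' * r) = x' * r := by rw [← mul_assoc, hxx']
  have hX' : cut δ a * (w * (x' * r)) = x' * r := by rw [← mul_assoc, ← hw, hX]
  have hgX : g * a * g * (x' * r) = x' * r := by
    calc g * a * g * (x' * r) = g * a * g * (cut δ a * (w * (x' * r))) := by rw [hX']
      _ = (g * a * g * cut δ a) * (w * (x' * r)) := by simp only [mul_assoc]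
      _ = x' * r := by rw [hga, hX']
  refine ⟨x' * r, hX, ⟨g, w₀ * (w * (x' * r)), ?_⟩, ?_, ?_⟩
  · calc g * (x' * r) = g * (cut δ a * (w * (x' * r))) := by rw [hX']
      _ = g * a * (w₀ * (w * (x' * r))) := by rw [hw₀]; simp only [mul_assoc]
  · calc star (g * (x' * r)) * a * (g * (x' * r)) = star (x' * r) * (g * a * g * (x' * r)) := by
          rw [star_mul g, hg.star_eq]; simp only [mul_assoc]
      _ = star (x' * r) * (x' * r) := by rw [hgX]
  · have h1 := norm_sub_cut_le ha (δ := δ + δ) (by linarith)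
    calc ‖star (x' * r) * (x' * r) - a‖
        = ‖(star (x' * r) * (x' * r) - cut (δ + δ) a) - (a - cut (δ + δ) a)‖ := by
          congr 1; abel
      _ ≤ ‖star (x' * r) * (x' * r) - cut (δ + δ) a‖ + ‖a - cut (δ + δ) a‖ := norm_sub_le _ _
      _ < 3 * δ := by linarith

/-- Let `δ = ε / 4`, `g` from `exists_invSqrt` for `(a, δ)`, `g'` for `(b, δ)`. `diag` for
`(cut δ a, cut (2 δ) a, cut δ b, cut (2 δ) b, g c g')` at tolerance
`ε / (2 (‖a‖ + ‖b‖ + ε + 1))` (`cut (2 δ) a = cut δ (cut δ a)`) gives `x, y` with cores `x', y'`.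
`exists_cuntz` gives `X = x' r` with `‖X⋆ X - cut (2 δ) a‖ < δ`, so `‖X⋆ X - a‖ < 3 δ`; likewise
`Y = y' r'`. `x X = X ∈ cut δ a * B`, so `g a g X = X`. Take `s = g X`, `t = g' Y`:
`s⋆ a s = X⋆ X`, `s⋆ c t = X⋆ (x g c g' y) Y`. -/
theorem exists_diag {a b : B} (c : B) (ha : 0 ≤ a) (hb : 0 ≤ b) (hpa : Pi a) (hpb : Pi b)
    {ε : ℝ} (hε : 0 < ε) :
    ∃ s t : B, (∃ u v, s = u * a * v) ∧ (∃ u v, t = u * b * v) ∧ ‖star s * a * s - a‖ < ε ∧
      ‖star t * b * t - b‖ < ε ∧ ‖star s * c * t‖ < ε := by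
  have has : IsSelfAdjoint a := IsSelfAdjoint.of_nonneg ha
  have hbs : IsSelfAdjoint b := IsSelfAdjoint.of_nonneg hb
  set δ : ℝ := ε / 4 with hδdef
  have hδ : 0 < δ := by positivity
  obtain ⟨g, hg, hga⟩ := exists_invSqrt has hδ
  obtain ⟨g', hg', hgb⟩ := exists_invSqrt hbs hδ
  set K : ℝ := ‖a‖ + ‖b‖ + ε + 1 with hK
  have hK0 : 0 < K := by positivity
  obtain ⟨w₀, -, hw₀, -⟩ := exists_cut_eq has hδ
  have hpi : Pi (cut δ a) := hpa.of_eq 1 w₀ (by rw [one_mul, hw₀])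
  have hla : Ll (cut (δ + δ) a) (cut δ a) := by
    rw [← cut_cut has δ hδ.le]; exact ll_cut _ hδ
  have hlb : Ll (cut (δ + δ) b) (cut δ b) := by
    rw [← cut_cut hbs δ hδ.le]; exact ll_cut _ hδ
  obtain ⟨x, y, hx, hy, hxy⟩ := diag (g * c * g') (cut_nonneg δ a) (cut_nonneg δ b) hpi hla hlb
    (ε := ε / (2 * K)) (by positivity)
  obtain ⟨X, hX, hXa, hXs, hXn⟩ := iter_side ha hpa hδ hg hga hx
  obtain ⟨Y, hY, hYb, hYs, hYn⟩ := iter_side hb hpb hδ hg' hgb hy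
  refine ⟨g * X, g' * Y, hXa, hYb, ?_, ?_, ?_⟩
  · rw [hXs]; linarith
  · rw [hYs]; linarith
  · have hXx : star X * x = star X := by
      have h := congrArg star hX
      rwa [star_mul, (IsSelfAdjoint.of_nonneg hx.1).star_eq] at h
    have e : star (g * X) * c * (g' * Y) = star X * (x * (g * c * g') * y) * Y := by
      calc star (g * X) * c * (g' * Y) = star X * (g * c * g') * Y := by
            rw [star_mul g, hg.star_eq]; simp only [mul_assoc]
        _ = (star X * x) * (g * c * g') * (y * Y) := by rw [hXx, hY]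
        _ = star X * (x * (g * c * g') * y) * Y := by simp only [mul_assoc]
    have hX2 : ‖X‖ * ‖X‖ ≤ ‖a‖ + ε := by
      rw [← CStarRing.norm_star_mul_self]
      have := norm_add_le (star X * X - a) a
      rw [sub_add_cancel] at this
      linarith
    have hY2 : ‖Y‖ * ‖Y‖ ≤ ‖b‖ + ε := by
      rw [← CStarRing.norm_star_mul_self]
      have := norm_add_le (star Y * Y - b) b
      rw [sub_add_cancel] at this
      linarith
    have hXY : ‖X‖ * ‖Y‖ ≤ K := by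
      nlinarith [sq_nonneg (‖X‖ - ‖Y‖), norm_nonneg a, norm_nonneg b]
    rw [e]
    calc ‖star X * (x * (g * c * g') * y) * Y‖ ≤ ‖star X‖ * ‖x * (g * c * g') * y‖ * ‖Y‖ :=
          (norm_mul_le _ _).trans (mul_le_mul_of_nonneg_right (norm_mul_le _ _) (norm_nonneg _))
      _ ≤ ‖X‖ * (ε / (2 * K)) * ‖Y‖ := by rw [norm_star]; gcongr
      _ = (‖X‖ * ‖Y‖) * (ε / (2 * K)) := by ring
      _ ≤ K * (ε / (2 * K)) := by gcongr
      _ = ε / 2 := by field_simp
      _ < ε := by linarith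

end Crest.Agent.R110
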