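import Crest.Agent.R110.Ideal
import Crest.Agent.R110.Ramp

/-! Row 110: compact containment and existence of pieces. -/

set_option autoImplicit false

namespace Crest.Agent.R110

open Crest.OpAlg (IsProperlyInfinite)

universe u

variable {B : Type u} [CStarAlgebra B] [PartialOrder B] [StarOrderedRing B]
variable {Q : Type u} [CStarAlgebra Q] [PartialOrder Q] [StarOrderedRing Q]

theorem ll_cut (a : B) {δ : ℝ} (hδ : 0 < δ) : Ll (cut δ a) a := by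
  exact ⟨δ, hδ, Sub.refl _⟩

theorem Sub.ll {x y a : B} (h : Sub x y) (h' : Ll y a) : Ll x a := by
  obtain ⟨δ, hδ, hs⟩ := h'
  exact ⟨δ, hδ, h.trans hs⟩

/-- `exists_cut_eq`. -/
theorem Ll.sub {x a : B} (h : Ll x a) (ha : IsSelfAdjoint a) : Sub x a := by
  obtain ⟨δ, hδ, hs⟩ := h
  obtain ⟨w, -, hw, -⟩ := exists_cut_eq ha hδ
  refine hs.trans ?_
  rw [hw]
  exact (Sub.refl a).mul_right w

theorem Ll.map {x a : B} (h : Ll x a) (ha : IsSelfAdjoint a) (π : B →⋆ₐ[ℂ] Q) :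
    Ll (π x) (π a) := by
  obtain ⟨δ, hδ, hs⟩ := h
  refine ⟨δ, hδ, ?_⟩
  rw [← map_cut π δ ha]
  exact hs.map π

/-- `cut_cut` with `γ = δ / 2`. -/
theorem Ll.interp {x a : B} (h : Ll x a) (ha : IsSelfAdjoint a) :
    ∃ γ : ℝ, 0 < γ ∧ Ll x (cut γ a) := by
  obtain ⟨δ, hδ, hs⟩ := h
  refine ⟨δ / 2, half_pos hδ, δ / 2, half_pos hδ, ?_⟩
  rw [cut_cut ha (δ / 2) (half_pos hδ).le, add_halves]
  exact hs

/-- `Sub (cut δ' a) (cut δ a)`: `cut_cut` and `exists_cut_eq`. -/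
theorem sub_cut_cut {a : B} (ha : IsSelfAdjoint a) {δ δ' : ℝ} (h : δ ≤ δ') :
    Sub (cut δ' a) (cut δ a) := by
  rcases h.eq_or_lt with rfl | hlt
  · exact Sub.refl _
  · have hpos : 0 < δ' - δ := sub_pos.2 hlt
    obtain ⟨w, -, hw, -⟩ := exists_cut_eq (cut_nonneg δ a).isSelfAdjoint hpos
    have e : cut δ' a = cut δ a * w := by
      rw [← hw, cut_cut ha δ hpos.le, add_sub_cancel]
    rw [e]
    exact (Sub.refl _).mul_right w

/-- Let `Sub x (cut δ a)`. The closure `K` of `{w | ∃ η > 0, Sub w (cut η z)}` is a closed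
two-sided ideal (`sub_cut_cut` makes the union directed) containing `z` (`norm_sub_cut_le`), so
`a ∈ K` (`Sub.mem_of_isClosed`): `‖a - w‖ < δ` with `Sub w (cut η z)`. A homomorphism `π` killing
`cut η z` has `‖π a‖ = ‖π (a - w)‖ < δ`, so `π (cut δ a) = cut δ (π a) = 0`. -/
theorem Ll.of_sub {x a z : B} (h : Ll x a) (ha : 0 ≤ a) (hz : 0 ≤ z) (haz : Sub a z) :
    Ll x z := by
  obtain ⟨δ, hδ, hs⟩ := h
  have hzs : IsSelfAdjoint z := hz.isSelfAdjoint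
  set S : Set B := {w | ∃ η : ℝ, 0 < η ∧ Sub w (cut η z)} with hS
  have hadd : ∀ {p q : B}, p ∈ S → q ∈ S → p + q ∈ S := by
    rintro p q ⟨η, hη, hp⟩ ⟨η', hη', hq⟩
    refine ⟨min η η', lt_min hη hη', fun P _ _ _ ρ hρ => ?_⟩
    rw [map_add, (hp.trans (sub_cut_cut hzs (min_le_left η η'))) P ρ hρ,
      (hq.trans (sub_cut_cut hzs (min_le_right η η'))) P ρ hρ, add_zero]
  have hleft : ∀ (p : B) {q : B}, q ∈ S → p * q ∈ S := by
    rintro p q ⟨η, hη, hq⟩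
    exact ⟨η, hη, hq.mul_left p⟩
  have hright : ∀ {p : B} (q : B), p ∈ S → p * q ∈ S := by
    rintro p q ⟨η, hη, hp⟩
    exact ⟨η, hη, hp.mul_right q⟩
  have hzero : (0 : B) ∈ S := ⟨1, one_pos, fun P _ _ _ ρ _ => map_zero ρ⟩
  have hL : ∀ (p : B) {q : B}, q ∈ closure S → p * q ∈ closure S := fun p q hq =>
    map_mem_closure (f := fun t : B => p * t) (by fun_prop) hq fun t ht => hleft p ht
  have hR : ∀ {p : B} (q : B), p ∈ closure S → p * q ∈ closure S := fun {p} q hp =>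
    map_mem_closure (f := fun t : B => t * q) (by fun_prop) hp fun t ht => hright q ht
  let K : TwoSidedIdeal B := TwoSidedIdeal.mk' (closure S) (subset_closure hzero)
    (fun {p q} hp hq => map_mem_closure₂ (f := fun s t : B => s + t) continuous_add hp hq
      fun s hs t ht => hadd hs ht)
    (fun {p} hp => by simpa using hL (-1) hp)
    (fun {p q} hq => hL p hq) (fun {p q} hp => hR q hp)
  have hK : (K : Set B) = closure S := TwoSidedIdeal.coe_mk' ..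
  have hzK : z ∈ K := by
    rw [← SetLike.mem_coe, hK, Metric.mem_closure_iff]
    intro ε hε
    refine ⟨cut (ε / 2) z, ⟨ε / 2, half_pos hε, Sub.refl _⟩, ?_⟩
    rw [dist_eq_norm]
    exact (norm_sub_cut_le hz (half_pos hε).le).trans_lt (half_lt_self hε)
  have haK : a ∈ K := haz.mem_of_isClosed K (hK ▸ isClosed_closure) hzK
  rw [← SetLike.mem_coe, hK, Metric.mem_closure_iff] at haK
  obtain ⟨w, ⟨η, hη, hw⟩, hd⟩ := haK δ hδ
  refine ⟨η, hη, hs.trans fun P _ _ _ ρ hρ => ?_⟩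
  have hρa : 0 ≤ ρ a := map_nonneg ρ ha
  rw [map_cut ρ δ ha.isSelfAdjoint, cut_eq_zero_iff hρa hδ.le]
  have e : ρ a = ρ (a - w) := by rw [map_sub, hw P ρ hρ, sub_zero]
  rw [e]
  rw [dist_eq_norm] at hd
  exact (NonUnitalStarAlgHom.norm_apply_le ρ _).trans hd.le

/-- With `Sub a' (cut δ z)`: `z k = ramp (δ / 4) (δ / 2) z` and `x' = cut (δ / 2) z`. -/
theorem exists_piece {a a' z w : B} (hz : 0 ≤ z) (hw : z = a * w) (h : Ll a' z) :
    ∃ k, z * k = k * z ∧ Piece a a' (z * k) := by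
  obtain ⟨δ, hδ, hs⟩ := h
  have hzs : IsSelfAdjoint z := hz.isSelfAdjoint
  have h4 : 0 < δ / 4 := by positivity
  have h42 : δ / 4 < δ / 2 := by linarith
  obtain ⟨k, -, -, hk, hk'⟩ := exists_ramp_eq hzs h4 h42
  refine ⟨k, hk ▸ hk', ?_⟩
  rw [← hk]
  refine ⟨ramp_nonneg _ _ _, norm_ramp_le _ _ _, ⟨w * k, ?_⟩, cut (δ / 2) z, cut_nonneg _ _,
    ramp_mul_cut hzs h42 le_rfl, δ / 2, half_pos hδ, ?_⟩
  · rw [hk, ← mul_assoc, ← hw]
  · rw [cut_cut hzs (δ / 2) (half_pos hδ).le, add_halves]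
    exact hs

/-- If `x x' = x'` and `‖π x‖ < 1` then `π x' = 0`; and `Sub a' x'`. -/
theorem Piece.map_eq_zero {a a' x : B} (h : Piece a a' x) (π : B →⋆ₐ[ℂ] Q) (hx : ‖π x‖ < 1) :
    π a' = 0 := by
  obtain ⟨-, -, -, x', hx0, hxx, hl⟩ := h
  refine hl.sub hx0.isSelfAdjoint Q π ?_
  have h1 : ‖π x'‖ ≤ ‖π x‖ * ‖π x'‖ := by
    calc ‖π x'‖ = ‖π x * π x'‖ := by rw [← map_mul, hxx]
      _ ≤ ‖π x‖ * ‖π x'‖ := norm_mul_le _ _
  have h2 : ‖π x'‖ ≤ 0 := by nlinarith [norm_nonneg (π x')]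
  exact norm_le_zero_iff.1 h2

/-- A piece of the core `x'` of `x`. -/
theorem Piece.trans {a x x' a' y : B} (hx : ∃ w, x = a * w) (hx' : x * x' = x')
    (h : Piece x' a' y) : Piece a a' y ∧ x * y = y := by
  obtain ⟨w, hw⟩ := hx
  obtain ⟨hy0, hy1, ⟨w', hw'⟩, hy'⟩ := h
  have e : x * y = y := by rw [hw', ← mul_assoc, hx']
  refine ⟨⟨hy0, hy1, ⟨w * y, ?_⟩, hy'⟩, e⟩
  rw [← mul_assoc, ← hw, e]

end Crest.Agent.R110
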