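import Crest.Agent.R110.Ll

/-! Row 110: the second piece from test vectors. -/

set_option autoImplicit false

namespace Crest.Agent.R110

open Crest.OpAlg (IsProperlyInfinite)

universe u

variable {B : Type u} [CStarAlgebra B] [PartialOrder B] [StarOrderedRing B]
variable {Q : Type u} [CStarAlgebra Q] [PartialOrder Q] [StarOrderedRing Q]

/-- Let `μ = θ² b b - b c⋆ x x c b` (self-adjoint), `P = cut 0 μ`, `Y = b P`.
* `Sub b'' P`: a homomorphism killing `P` has `cut 0 (π μ) = 0`, so `π μ ≤ 0`, and `h` applies.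
* `Sub P (Y Y⋆)`: if `π (Y Y⋆) = 0` then `π Y = 0`, so `π (P μ P) = 0`; but
  `P μ P = P P P` (`cut_zero_mul`), and a self-adjoint element with cube zero vanishes
  (`P⁴ = (P P)⋆ (P P)`).
* So `Ll b' (Y Y⋆)` (`Ll.of_sub`) and `exists_piece` gives `y = Y Y⋆ k = Y w`.
* `0 ≤ P μ P` gives `(x c Y w)⋆ (x c Y w) ≤ θ² (Y w)⋆ (Y w)`, so `‖x c y‖ ≤ θ ‖y‖ ≤ θ`. -/
theorem exists_piece_of_test {b b' b'' x c : B} {θ : ℝ} (hb : 0 ≤ b) (hx : IsSelfAdjoint x)
    (hθ : 0 ≤ θ) (hb'' : 0 ≤ b'') (hl : Ll b' b'')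
    (h : ∀ (P : Type u) [CStarAlgebra P] [PartialOrder P] [StarOrderedRing P] (π : B →⋆ₐ[ℂ] P),
      (θ ^ 2) • (π b * π b) ≤ π b * star (π c) * (π x * π x) * π c * π b → π b'' = 0) :
    ∃ y, Piece b b' y ∧ ‖x * c * y‖ ≤ θ := by
  have hbs : IsSelfAdjoint b := IsSelfAdjoint.of_nonneg hb
  set μ : B := (θ ^ 2) • (b * b) - b * star c * (x * x) * c * b with hμdef
  have hμ : IsSelfAdjoint μ := by
    rw [IsSelfAdjoint, hμdef]
    simp only [star_sub, star_smul, star_mul, star_star, hbs.star_eq, hx.star_eq, star_trivial,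
      mul_assoc]
  set P := cut 0 μ with hP
  have hP0 : 0 ≤ P := cut_nonneg _ _
  have hPs : IsSelfAdjoint P := IsSelfAdjoint.of_nonneg hP0
  have hPP : P * μ * P = P * P * P := by rw [(cut_zero_mul hμ).1]
  have e1 : P * μ * P = (θ ^ 2) • (star (b * P) * (b * P)) -
      star (x * c * (b * P)) * (x * c * (b * P)) := by
    simp only [hμdef, star_mul, hbs.star_eq, hx.star_eq, hPs.star_eq, mul_sub, sub_mul,
      mul_smul_comm, smul_mul_assoc, mul_assoc]
  have h1 : Sub b'' P := by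
    intro R _ _ _ π hπ
    rw [hP, map_cut π 0 hμ, cut_zero_eq_zero_iff (hμ.map π), hμdef] at hπ
    refine h R π ?_
    simpa only [map_sub, map_mul, map_star, sub_nonpos, LinearMapClass.map_smul_of_tower,
      ← Complex.coe_smul, map_smul] using hπ
  have h2 : Sub P (b * P * star (b * P)) := by
    intro R _ _ _ π hπ
    rw [map_mul, map_star, CStarRing.mul_star_self_eq_zero_iff] at hπ
    have h3 : π (P * P * P) = 0 := by
      rw [← hPP, e1, ← Complex.coe_smul]
      simp only [map_sub, map_smul, map_mul π (star _), map_mul π (x * c), hπ, mul_zero, smul_zero,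
        sub_zero]
    have h4 : π P * π P = 0 := by
      rw [← CStarRing.star_mul_self_eq_zero_iff, star_mul, (hPs.map π).star_eq, ← mul_assoc,
        ← map_mul, ← map_mul, h3, zero_mul]
    rwa [← CStarRing.star_mul_self_eq_zero_iff, (hPs.map π).star_eq]
  have h5 : Ll b' (b * P * star (b * P)) :=
    hl.of_sub hb'' (mul_star_self_nonneg _) (h1.trans h2)
  obtain ⟨k, -, hk⟩ := exists_piece (a := b) (mul_star_self_nonneg (b * P)) (mul_assoc _ _ _) h5
  refine ⟨_, hk, ?_⟩
  set y := b * P * star (b * P) * k with hy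
  have h6 : 0 ≤ P * μ * P := by
    rw [hPP]
    simpa only [hPs.star_eq] using star_left_conjugate_nonneg hP0 P
  have h7 := star_left_conjugate_nonneg h6 (star (b * P) * k)
  have e2 : star (star (b * P) * k) * (P * μ * P) * (star (b * P) * k) =
      (θ ^ 2) • (star y * y) - star (x * c * y) * (x * c * y) := by
    rw [e1, hy]
    simp only [star_mul, mul_sub, sub_mul, mul_smul_comm, smul_mul_assoc, mul_assoc]
  rw [e2, sub_nonneg] at h7
  have h8 := CStarAlgebra.norm_le_norm_of_nonneg_of_le (star_mul_self_nonneg _) h7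
  rw [norm_smul, CStarRing.norm_star_mul_self, CStarRing.norm_star_mul_self, Real.norm_eq_abs,
    abs_of_nonneg (sq_nonneg θ)] at h8
  have h9 : ‖y‖ * ‖y‖ ≤ 1 := mul_le_one₀ hk.2.1 (norm_nonneg _) hk.2.1
  refine (pow_le_pow_iff_left₀ (norm_nonneg _) hθ two_ne_zero).1 ?_
  nlinarith [sq_nonneg θ]

end Crest.Agent.R110
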