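import Crest.Agent.R110.Mu
import Crest.Agent.R110.Orth

/-! Row 110: the case of a projection. -/

set_option autoImplicit false
set_option linter.unusedSectionVars false

namespace Crest.Agent.R110

open Crest.OpAlg (IsProperlyInfinite)

universe u

variable {B : Type u} [CStarAlgebra B] [PartialOrder B] [StarOrderedRing B]
variable {Q : Type u} [CStarAlgebra Q] [PartialOrder Q] [StarOrderedRing Q]

theorem proj_norm_map_le (π : B →⋆ₐ[ℂ] Q) (x : B) : ‖π x‖ ≤ ‖x‖ :=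
  NonUnitalStarAlgHom.norm_apply_le π x

theorem proj_ll {p : B} (hp : IsStarProjection p) : Ll p p := by
  refine ⟨1 / 2, by norm_num, fun P _ _ _ π h => ?_⟩
  have hP : IsStarProjection (π p) :=
    ⟨by rw [IsIdempotentElem, ← map_mul, hp.isIdempotentElem.eq], hp.isSelfAdjoint.map π⟩
  rw [map_cut π _ hp.isSelfAdjoint, cut_eq_zero_iff hP.nonneg (by norm_num)] at h
  have h1 : ‖π p‖ * ‖π p‖ = ‖π p‖ := by
    rw [← CStarRing.norm_star_mul_self, hP.isSelfAdjoint.star_eq, hP.isIdempotentElem.eq]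
  rw [← norm_eq_zero]
  nlinarith [norm_nonneg (π p)]

theorem proj_norm_sq_le (π : B →⋆ₐ[ℂ] Q) (x y : B) :
    ‖π x‖ ^ 2 ≤ ‖π y‖ ^ 2 + ‖star x * x - star y * y‖ := by
  rw [sq, sq, ← CStarRing.norm_star_mul_self, ← CStarRing.norm_star_mul_self, ← map_star, ← map_star,
    ← map_mul, ← map_mul]
  have h1 := proj_norm_map_le π (star x * x - star y * y)
  have h2 := norm_add_le (π (star y * y)) (π (star x * x - star y * y))
  rw [← map_add, add_sub_cancel] at h2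
  linarith

/-- Let `Ll a' (cut δ a)` (`Ll.interp`), `w = p c⋆ a`, `k = w w⋆` (`Pi k`, `p k = k`), and
`ρ > 0` with `3 ρ ≤ (ε² δ²)²`. `exists_orth` for `k` at tolerance `ρ / 4` gives `v₁, v₂ ∈ k B`.
Put `m = ramp (ρ / 2) ρ (v₂ v₂⋆)` (`= v₂ v₂⋆ k'`, so `p m = m = m p`),
`v = ramp ρ (2 ρ) (v₂ v₂⋆) v₂` (so `m v = v = p v`, `v₁⋆ v = 0`, `v ∈ w B`) and
`b₀ = v₁ v₁⋆ + (p - m) (p - m) ∈ p B`, `b₀ v = 0`.
* `Sub p b₀`: if `π b₀ = 0` then `π v₁ = 0`, `π (p - m) = 0`, `‖π (k⋆ k)‖ < ρ / 4`,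
  `‖π v₂‖² < ρ / 2`, `π m = 0`. Since `Ll p p` (`cut (1/2) p`: if it is killed by `π` then
  `‖π p‖ ≤ 1 / 2`, so the projection `π p` is `0`), `Ll p b₀`, and `exists_piece` gives a piece
  `y = b₀ k₀ = k₀ b₀` of `(p, p)` with `y v = 0`, `y p = y`.
* `exists_piece_of_test` with `(b, b', b'', x, c, θ) = (a, a', cut δ a, y, c⋆, ε)`: in a quotient
  with `ε² a a ≤ a c y y c⋆ a = (y w)⋆ (y w)` one has
  `ε² w⋆ w ≤ ε² ‖c‖² a a ≤ ‖c‖² (y w)⋆ (y w)`; conjugating, `ε² v⋆ v ≤ ‖c‖² (y v)⋆ (y v) = 0`, so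
  `π v = 0`, `‖π v₂‖² ≤ ρ` (`norm_le_of_ramp_mul_eq_zero`), `‖π k‖² ≤ 2 ρ`, and
  `ε² ‖π a‖² ≤ ‖π (y w)‖² ≤ ‖π w‖² = ‖π k‖`; hence `‖π a‖ ≤ δ`.
Finally `‖x c y‖ = ‖y c⋆ x‖`. -/
theorem diag_proj {a a' p : B} (c : B) (ha : 0 ≤ a) (hp : IsStarProjection p) (hpi : Pi p)
    (hl : Ll a' a) {ε : ℝ} (hε : 0 < ε) : Diag a a' p p c ε := by
  obtain ⟨δ, hδ, hl'⟩ := hl.interp ha.isSelfAdjoint
  have hpp : p * p = p := hp.isIdempotentElem.eq
  have hps : star p = p := hp.isSelfAdjoint.star_eq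
  obtain ⟨w, hw⟩ : ∃ w, w = p * star c * a := ⟨_, rfl⟩
  obtain ⟨k, hk⟩ : ∃ k, k = w * star w := ⟨_, rfl⟩
  have hpik : Pi k := hpi.of_eq 1 (star c * a * star w) (by
    rw [hk, one_mul]; nth_rewrite 1 [hw]; simp only [mul_assoc])
  have hpw : p * w = w := by rw [hw, ← mul_assoc, ← mul_assoc, hpp]
  have hpk : p * k = k := by rw [hk, ← mul_assoc, hpw]
  obtain ⟨ρ, hρ, hρ'⟩ : ∃ ρ : ℝ, 0 < ρ ∧ 3 * ρ ≤ (ε ^ 2 * δ ^ 2) ^ 2 :=
    ⟨(ε ^ 2 * δ ^ 2) ^ 2 / 3, by positivity, by linarith⟩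
  obtain ⟨r, s, h12, h1, h2⟩ := exists_orth hpik (ε := ρ / 4) (by positivity)
  obtain ⟨v₁, hv₁⟩ : ∃ v, v = k * r := ⟨_, rfl⟩
  obtain ⟨v₂, hv₂⟩ : ∃ v, v = k * s := ⟨_, rfl⟩
  rw [← hv₁] at h12 h1
  rw [← hv₂] at h12 h2
  have hp1 : p * v₁ = v₁ := by rw [hv₁, ← mul_assoc, hpk]
  have hp2 : p * v₂ = v₂ := by rw [hv₂, ← mul_assoc, hpk]
  have hh : IsSelfAdjoint (v₂ * star v₂) := IsSelfAdjoint.mul_star_self v₂
  obtain ⟨k₁, -, -, hm, -⟩ := exists_ramp_eq hh (α := ρ / 2) (β := ρ) (by positivity) (by linarith)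
  obtain ⟨k₂, -, -, hg, -⟩ := exists_ramp_eq hh (α := ρ) (β := 2 * ρ) hρ (by linarith)
  have hmg := ramp_mul_ramp hh (α := ρ / 2) (β := ρ) (γ := ρ) (δ := 2 * ρ) (by linarith) le_rfl
    (by linarith)
  have hmsa : IsSelfAdjoint (ramp (ρ / 2) ρ (v₂ * star v₂)) := (ramp_nonneg _ _ _).isSelfAdjoint
  have hπm : ∀ (P : Type u) [CStarAlgebra P] [PartialOrder P] [StarOrderedRing P]
      (π : B →⋆ₐ[ℂ] P), ‖π v₂‖ ^ 2 ≤ ρ / 2 → π (ramp (ρ / 2) ρ (v₂ * star v₂)) = 0 := by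
    intro P _ _ _ π h
    rw [map_ramp π _ _ hh]
    refine ramp_eq_zero (hh.map π) (by linarith) ?_
    rwa [map_mul, map_star, CStarRing.norm_self_mul_star, ← sq]
  have hπv : ∀ (P : Type u) [CStarAlgebra P] [PartialOrder P] [StarOrderedRing P]
      (π : B →⋆ₐ[ℂ] P), π (ramp ρ (2 * ρ) (v₂ * star v₂) * v₂) = 0 → ‖π v₂‖ ^ 2 ≤ ρ := by
    intro P _ _ _ π h
    rw [map_mul, map_ramp π _ _ hh, map_mul, map_star] at h
    exact norm_le_of_ramp_mul_eq_zero hρ.le (by linarith) h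
  generalize ramp (ρ / 2) ρ (v₂ * star v₂) = m at hm hmg hmsa hπm
  obtain ⟨v, hv⟩ : ∃ v, v = ramp ρ (2 * ρ) (v₂ * star v₂) * v₂ := ⟨_, rfl⟩
  have hmv : m * v = v := by rw [hv, ← mul_assoc, hmg]
  have hv' : v = v₂ * (star v₂ * k₂ * v₂) := by rw [hv, hg]; simp only [mul_assoc]
  rw [← hv] at hπv
  have hpv : p * v = v := by rw [hv', ← mul_assoc, hp2]
  have h1v : star v₁ * v = 0 := by rw [hv', ← mul_assoc, h12, zero_mul]
  have hpm : p * m = m := by rw [hm, ← mul_assoc, ← mul_assoc, hp2]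
  obtain ⟨t, ht⟩ : ∃ t, v = w * t := ⟨star w * s * (star v₂ * k₂ * v₂), by
    rw [hv']; nth_rewrite 1 [hv₂, hk]; simp only [mul_assoc]⟩
  have hq : star (p - m) = p - m := by rw [star_sub, hps, hmsa.star_eq]
  obtain ⟨b₀, hb₀⟩ : ∃ b, b = v₁ * star v₁ + star (p - m) * (p - m) := ⟨_, rfl⟩
  have hb0 : 0 ≤ b₀ := by
    rw [hb₀]; exact add_nonneg (mul_star_self_nonneg _) (star_mul_self_nonneg _)
  have hpb : b₀ = p * b₀ := by
    rw [hb₀, hq, mul_add, ← mul_assoc, hp1, ← mul_assoc, mul_sub p, hpp, hpm]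
  have hbv : b₀ * v = 0 := by
    rw [hb₀, add_mul, mul_assoc, h1v, mul_assoc, sub_mul, hpv, hmv]; simp
  have hsub : Sub p b₀ := by
    intro P _ _ _ π h
    rw [hb₀, map_add, map_mul, map_mul, map_star, map_star,
      add_eq_zero_iff_of_nonneg (mul_star_self_nonneg _) (star_mul_self_nonneg _),
      CStarRing.mul_star_self_eq_zero_iff, CStarRing.star_mul_self_eq_zero_iff] at h
    have a1 := proj_norm_sq_le π k v₁
    have a2 := proj_norm_sq_le π v₂ k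
    rw [h.1, norm_zero, norm_sub_rev] at a1
    have a3 := hπm P π (by nlinarith)
    have a4 := h.2
    rwa [map_sub, a3, sub_zero] at a4
  obtain ⟨k₀, hk₀, hy⟩ := exists_piece hb0 hpb ((proj_ll hp).of_sub hp.nonneg hb0 hsub)
  have hyv : b₀ * k₀ * v = 0 := by rw [hk₀, mul_assoc, hbv, mul_zero]
  have hpy : p * (b₀ * k₀) = b₀ * k₀ := by rw [← mul_assoc, ← hpb]
  generalize b₀ * k₀ = y at hy hyv hpy
  have hysa : IsSelfAdjoint y := hy.1.isSelfAdjoint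
  have hyp : y * p = y := by
    have := congrArg star hpy
    rwa [star_mul, hysa.star_eq, hps] at this
  have hyw : y * w = y * star c * a := by rw [hw, ← mul_assoc, ← mul_assoc, hyp]
  obtain ⟨x, hx, hxy⟩ := exists_piece_of_test (c := star c) ha hysa hε.le (cut_nonneg δ a) hl' (by
    intro P _ _ _ π h
    have hA : 0 ≤ π a := map_nonneg π ha
    have e : π a * star (π (star c)) * (π y * π y) * π (star c) * π a =
        star (π (y * w)) * π (y * w) := by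
      rw [hyw, map_mul, map_mul, star_mul, star_mul, (hysa.map π).star_eq, hA.isSelfAdjoint.star_eq]
      simp only [mul_assoc]
    rw [e] at h
    have b1 := star_left_conjugate_le_conjugate h (π t)
    have e1 : star (π t) * (star (π (y * w)) * π (y * w)) * π t = 0 := by
      rw [mul_assoc, mul_assoc, ← map_mul, mul_assoc y, ← ht]
      simp [hyv]
    have e2 : star (π t) * (ε ^ 2 • (π a * π a)) * π t = ε ^ 2 • (star (π a * π t) * (π a * π t)) := by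
      rw [star_mul, hA.isSelfAdjoint.star_eq]
      simp only [mul_smul_comm, smul_mul_assoc, mul_assoc]
    rw [e1, e2] at b1
    have b2 : π a * π t = 0 := by
      have b3 := le_antisymm b1 (smul_nonneg (sq_nonneg ε) (star_mul_self_nonneg _))
      rwa [smul_eq_zero_iff_right (by positivity), CStarRing.star_mul_self_eq_zero_iff] at b3
    have b4 : π v = 0 := by
      rw [ht, hw, mul_assoc, map_mul, map_mul π a, b2, mul_zero]
    have b5 := hπv P π b4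
    have b6 := proj_norm_sq_le π k v₂
    rw [norm_sub_rev] at b6
    have hAA : 0 ≤ π a * π a := by
      have := star_mul_self_nonneg (π a)
      rwa [hA.isSelfAdjoint.star_eq] at this
    have b7 := CStarAlgebra.norm_le_norm_of_nonneg_of_le (smul_nonneg (sq_nonneg ε) hAA) h
    have b8 : ‖π a * π a‖ = ‖π a‖ * ‖π a‖ := by
      rw [← CStarRing.norm_star_mul_self, hA.isSelfAdjoint.star_eq]
    rw [norm_smul, CStarRing.norm_star_mul_self, b8, Real.norm_of_nonneg (sq_nonneg ε)] at b7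
    have b9 : ‖π (y * w)‖ ≤ ‖π w‖ := by
      rw [map_mul]
      exact (norm_mul_le _ _).trans (mul_le_of_le_one_left (norm_nonneg _)
        ((proj_norm_map_le π y).trans hy.2.1))
    have b10 : ‖π k‖ = ‖π w‖ * ‖π w‖ := by
      rw [hk, map_mul, map_star, CStarRing.norm_self_mul_star]
    have b11 : ε ^ 2 * (‖π a‖ * ‖π a‖) ≤ ‖π k‖ := by
      rw [b10]; exact b7.trans (mul_le_mul b9 b9 (norm_nonneg _) (norm_nonneg _))
    have b12 : ‖π k‖ ≤ ε ^ 2 * δ ^ 2 :=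
      (pow_le_pow_iff_left₀ (norm_nonneg _) (by positivity) two_ne_zero).1 (by linarith)
    have b13 : ‖π a‖ ^ 2 ≤ δ ^ 2 :=
      le_of_mul_le_mul_left (by rw [sq ‖π a‖]; linarith) (show 0 < ε ^ 2 by positivity)
    rw [map_cut π _ ha.isSelfAdjoint, cut_eq_zero_iff hA hδ.le]
    exact (pow_le_pow_iff_left₀ (norm_nonneg _) hδ.le two_ne_zero).1 b13)
  refine ⟨x, y, hx, hy, ?_⟩
  rw [← norm_star, star_mul, star_mul, hysa.star_eq, hx.1.isSelfAdjoint.star_eq, ← mul_assoc]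
  exact hxy

end Crest.Agent.R110
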